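import Vale.Agent.P011.H373.LocNorm

/-!
Norms from a cubic field in terms of the coefficients of a characteristic polynomial, and a
criterion for all elements to be local norms.
-/

open NumberField IsDedekindDomain Polynomial Module Matrix

namespace Vale.Agent.P011.H373

/-- The product of `a + b x + c x ^ 2` over the three roots `x` of the cubic polynomial with
elementary symmetric functions `t`, `s`, `n`. -/
def nf {K : Type} [CommRing K] (t s n a b c : K) : K :=
  a ^ 3 + a ^ 2 * b * t + a ^ 2 * c * (t ^ 2 - 2 * s) + a * b ^ 2 * s + a * b * c * (t * s - 3 * n) +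
    a * c ^ 2 * (s ^ 2 - 2 * t * n) + b ^ 3 * n + b ^ 2 * c * (t * n) + b * c ^ 2 * (s * n) +
    c ^ 3 * n ^ 2

theorem mat_nf {R : Type} [CommRing R] (M : Matrix (Fin 3) (Fin 3) R) (a b c : R) :
    (a • (1 : Matrix (Fin 3) (Fin 3) R) + b • M + c • (M * M)).det =
      nf M.trace M.adjugate.trace M.det a b c := by
  rw [Matrix.det_fin_three, Matrix.det_fin_three, Matrix.adjugate_fin_three,
    Matrix.trace_fin_three, Matrix.trace_fin_three]
  simp only [Matrix.mul_apply, Fin.sum_univ_three, Matrix.add_apply, Matrix.smul_apply, smul_eq_mul,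
    Matrix.one_apply, nf]
  simp
  ring

/-- The cubic polynomial with elementary symmetric functions `t`, `s`, `n`. -/
noncomputable def cp {R : Type} [CommRing R] (t s n : R) : R[X] :=
  X ^ 3 - C t * X ^ 2 + C s * X - C n

section cp

variable {R : Type} [CommRing R] (t s n : R)

theorem cp_map {S : Type} [CommRing S] (φ : R →+* S) :
    (cp t s n).map φ = cp (φ t) (φ s) (φ n) := by
  simp [cp]

theorem cp_eval (x : R) : (cp t s n).eval x = x ^ 3 - t * x ^ 2 + s * x - n := by
  simp [cp]

theorem cp_aeval {S : Type} [CommRing S] [Algebra R S] (x : S) :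
    aeval x (cp t s n) = x ^ 3 - algebraMap R S t * x ^ 2 + algebraMap R S s * x -
      algebraMap R S n := by
  simp [cp]

theorem cp_deriv (x : R) : (derivative (cp t s n)).eval x = 3 * x ^ 2 - 2 * t * x + s := by
  simp [cp]
  ring

theorem cp_monic : (cp t s n).Monic := by
  unfold cp
  monicity!

variable [Nontrivial R]

theorem cp_natDegree : (cp t s n).natDegree = 3 := by
  unfold cp
  compute_degree!

end cp

section fld

variable {K E : Type} [Field K] [NumberField K] [Field E] [NumberField E] [Algebra K E]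

theorem norm_nf (hE : finrank K E = 3) {θ : E} {t s n : K} (hθ : aeval θ (cp t s n) = 0)
    (hgen : ∀ c : K, algebraMap K E c ≠ θ) :
    (∀ a b c : K, Algebra.norm K (algebraMap K E a + algebraMap K E b * θ +
      algebraMap K E c * (θ * θ)) = nf t s n a b c) ∧
    ∀ e : E, ∃ a b c : K, e = algebraMap K E a + algebraMap K E b * θ +
      algebraMap K E c * (θ * θ) := by
  have hmin := minpoly_eq Nat.prime_three hE (cp_monic t s n) (cp_natDegree t s n) hθ hgen
  have hd : (minpoly K θ).natDegree = 3 := by rw [hmin, cp_natDegree]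
  have hli := (linearIndependent_pow (K := K) θ).comp (finCongr hd.symm) (finCongr hd.symm).injective
  let bas : Basis (Fin 3) K E := basisOfLinearIndependentOfCardEqFinrank hli (by
    rw [Fintype.card_fin, hE])
  have hb : ∀ j : Fin 3, bas j = θ ^ (j : ℕ) := by
    intro j
    simp [bas]
  have h3 : θ * θ ^ 2 = n • (1 : E) - s • θ + t • θ ^ 2 := by
    rw [cp_aeval] at hθ
    rw [Algebra.smul_def, Algebra.smul_def, Algebra.smul_def]
    linear_combination hθ
  have r0 : θ * bas 0 = bas 1 := by rw [hb, hb]; simp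
  have r1 : θ * bas 1 = bas 2 := by rw [hb, hb]; simp [pow_two]
  have r2 : θ * bas 2 = n • bas 0 - s • bas 1 + t • bas 2 := by
    rw [hb, hb, hb]
    simpa using h3
  have hA : Algebra.leftMulMatrix bas θ = !![0, 0, n; 1, 0, -s; 0, 1, t] := by
    ext i j
    rw [Algebra.leftMulMatrix_eq_repr_mul]
    fin_cases j
    · show bas.repr (θ * bas 0) i = _
      rw [r0, Basis.repr_self]
      fin_cases i <;> simp
    · show bas.repr (θ * bas 1) i = _
      rw [r1, Basis.repr_self]
      fin_cases i <;> simp
    · show bas.repr (θ * bas 2) i = _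
      rw [r2, map_add, map_sub, map_smul, map_smul, map_smul, Basis.repr_self, Basis.repr_self,
        Basis.repr_self]
      fin_cases i <;> simp
  constructor
  · intro a b c
    rw [Algebra.norm_eq_matrix_det bas, map_add, map_add, map_mul, map_mul, map_mul,
      AlgHom.commutes, AlgHom.commutes, AlgHom.commutes, Algebra.algebraMap_eq_smul_one,
      Algebra.algebraMap_eq_smul_one, Algebra.algebraMap_eq_smul_one, smul_mul_assoc, one_mul,
      smul_mul_assoc, one_mul, mat_nf, hA, Matrix.adjugate_fin_three, Matrix.det_fin_three,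
      Matrix.trace_fin_three, Matrix.trace_fin_three]
    simp [nf]
  · intro e
    refine ⟨bas.repr e 0, bas.repr e 1, bas.repr e 2, ?_⟩
    conv_lhs => rw [← bas.sum_repr e, Fin.sum_univ_three]
    rw [hb, hb, hb]
    simp [Algebra.smul_def, pow_two]

/-- The cubic field generated by a root of a cubic polynomial without roots. -/
theorem exists_fld {t s n : K} (h : ∀ r : K, (cp t s n).eval r ≠ 0) :
    ∃ (E : Type) (_ : Field E) (_ : NumberField E) (_ : Algebra K E) (θ : E),
      finrank K E = 3 ∧ aeval θ (cp t s n) = 0 ∧ ∀ c : K, algebraMap K E c ≠ θ := by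
  have hirr : Irreducible (cp t s n) := by
    refine irreducible_of_degree_le_three_of_not_isRoot ?_ ?_
    · rw [cp_natDegree]; decide
    · intro x hx
      exact h x hx
  have : Fact (Irreducible (cp t s n)) := ⟨hirr⟩
  have hfin : Module.Finite K (AdjoinRoot (cp t s n)) :=
    (AdjoinRoot.powerBasis hirr.ne_zero).finite
  refine ⟨AdjoinRoot (cp t s n), inferInstance, NumberField.of_module_finite K _, inferInstance,
    AdjoinRoot.root _, ?_, ?_, ?_⟩
  · rw [(AdjoinRoot.powerBasis hirr.ne_zero).finrank]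
    exact cp_natDegree t s n
  · rw [AdjoinRoot.aeval_eq, AdjoinRoot.mk_self]
  · intro c hc
    have h1 : aeval (AdjoinRoot.root (cp t s n)) (cp t s n) = 0 := by
      rw [AdjoinRoot.aeval_eq, AdjoinRoot.mk_self]
    rw [← hc, aeval_algebraMap_apply, map_eq_zero] at h1
    exact h c h1

/-- If one root is larger than the others then it lies in the completion, so everything is a local
norm. -/
theorem loc_simple (hE : finrank K E = 3) {θ : E} {t s n : K} (hθ : aeval θ (cp t s n) = 0)
    (hgen : ∀ c : K, algebraMap K E c ≠ θ) (V : HeightOneSpectrum (𝓞 K))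
    (hs : V.valuation K s < V.valuation K t ^ 2) (hn : V.valuation K n < V.valuation K t ^ 3)
    {b : K} (hb : b ≠ 0) : LocN 3 K E V b := by
  have ht0 : t ≠ 0 := by
    rintro rfl
    rw [map_zero, zero_pow (by norm_num)] at hs
    exact not_lt_zero hs
  have hvt : V.valuation K t ≠ 0 := (Valuation.ne_zero_iff _).mpr ht0
  have h1 : V.valuation K (s / t ^ 2) < 1 := by
    rw [map_div₀, map_pow]
    exact (div_lt_one₀ (pow_pos (zero_lt_iff.mpr hvt) 2)).mpr hs
  have h2 : V.valuation K (n / t ^ 3) < 1 := by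
    rw [map_div₀, map_pow]
    exact (div_lt_one₀ (pow_pos (zero_lt_iff.mpr hvt) 3)).mpr hn
  obtain ⟨s1, m1, hm1⟩ := V.exists_primeCompl_mul_eq_of_integer (s / t ^ 2) h1.le
  obtain ⟨n1, m2, hm2⟩ := V.exists_primeCompl_mul_eq_of_integer (n / t ^ 3) h2.le
  set m : 𝓞 K := (m1 : 𝓞 K) * m2 with hm
  have hmV : m ∉ V.asIdeal := by
    intro h
    rcases V.isPrime.mem_or_mem h with h | h
    · exact m1.2 h
    · exact m2.2 h
  set s' : 𝓞 K := m1 * m2 ^ 2 * s1 with hs'
  set n' : 𝓞 K := m1 ^ 3 * m2 ^ 2 * n1 with hn'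
  have es : (s' : K) = (m : K) ^ 2 * (s / t ^ 2) := by
    show algebraMap (𝓞 K) K s' = algebraMap (𝓞 K) K m ^ 2 * (s / t ^ 2)
    rw [hs', hm, map_mul, map_mul, map_mul, map_pow, ← hm1]
    ring
  have en : (n' : K) = (m : K) ^ 3 * (n / t ^ 3) := by
    show algebraMap (𝓞 K) K n' = algebraMap (𝓞 K) K m ^ 3 * (n / t ^ 3)
    rw [hn', hm, map_mul, map_mul, map_mul, map_pow, map_pow, ← hm2]
    ring
  have vm : V.valuation K (m : K) = 1 := V.valuation_eq_one_iff_notMem.mpr hmV
  have vs : s' ∈ V.asIdeal := by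
    rw [← V.valuation_lt_one_iff_mem (K := K)]
    show V.valuation K (s' : K) < 1
    rw [es, map_mul, map_pow, vm, one_pow, one_mul]
    exact h1
  have vn : n' ∈ V.asIdeal := by
    rw [← V.valuation_lt_one_iff_mem (K := K)]
    show V.valuation K (n' : K) < 1
    rw [en, map_mul, map_pow, vm, one_pow, one_mul]
    exact h2
  have hm0 : (m : K) ≠ 0 := by
    intro h
    rw [h, map_zero] at vm
    exact zero_ne_one vm
  have hroot : ApxRoot V (cp m s' n') := by
    refine apxRoot_of_simple (α := m) ?_ ?_
    · rw [cp_eval]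
      have e : m ^ 3 - m * m ^ 2 + s' * m - n' = s' * m - n' := by ring
      rw [e]
      exact V.asIdeal.sub_mem (V.asIdeal.mul_mem_right _ vs) vn
    · rw [cp_deriv]
      intro h
      have e : m ^ 2 = (3 * m ^ 2 - 2 * m * m + s') - s' := by ring
      have h5 : m ^ 2 ∈ V.asIdeal := by
        rw [e]
        exact V.asIdeal.sub_mem h vs
      exact hmV (V.isPrime.mem_of_pow_mem 2 h5)
  have hθ' : aeval (algebraMap K E (m / t) * θ) ((cp m s' n').map (algebraMap (𝓞 K) K)) = 0 := by
    rw [cp_map, cp_aeval]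
    show _ - algebraMap K E (m : K) * _ + algebraMap K E (s' : K) * _ - algebraMap K E (n' : K) = 0
    rw [es, en]
    rw [cp_aeval] at hθ
    have e : (algebraMap K E (m / t) * θ) ^ 3 - algebraMap K E (m : K) *
        (algebraMap K E (m / t) * θ) ^ 2 + algebraMap K E ((m : K) ^ 2 * (s / t ^ 2)) *
        (algebraMap K E (m / t) * θ) - algebraMap K E ((m : K) ^ 3 * (n / t ^ 3)) =
        algebraMap K E (m / t) ^ 3 * (θ ^ 3 - algebraMap K E t * θ ^ 2 + algebraMap K E s * θ -
          algebraMap K E n) := by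
      have ht' : algebraMap K E t ≠ 0 := (_root_.map_ne_zero _).mpr ht0
      simp only [map_mul, map_div₀, map_pow]
      field_simp
    rw [e, hθ, mul_zero]
  have hgen' : ∀ c : K, algebraMap K E c ≠ algebraMap K E (m / t) * θ := by
    intro c hc
    refine hgen (c / (m / t)) ?_
    have : algebraMap K E (m / t) ≠ 0 := (_root_.map_ne_zero _).mpr (div_ne_zero hm0 ht0)
    rw [map_div₀, hc]
    field_simp
  exact loc_root Nat.prime_three hE V (cp_monic _ _ _) (cp_natDegree _ _ _) hθ' hgen' hroot hb
    ((Valuation.ne_zero_iff _).mpr (by norm_num))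

end fld

end Vale.Agent.P011.H373
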