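import Vale.Agent.P011.H487.LocD
import Vale.Agent.P011.H373.S1a

/-!
Local criteria for the norms of the cubic field `K[y]` inside an algebra of degree three.
-/

open NumberField IsDedekindDomain Polynomial Module Matrix

namespace Vale.Agent.P011.H373

open H775 (Cub)
open H487 (LocD)

section cases

theorem cp_inj {R : Type} [CommRing R] {t s n t' s' n' : R} (h : cp t s n = cp t' s' n') :
    t = t' ∧ s = s' ∧ n = n' := by
  have h0 := congrArg (fun q => q.coeff 0) h
  have h1 := congrArg (fun q => q.coeff 1) h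
  have h2 := congrArg (fun q => q.coeff 2) h
  simp only [cp, coeff_sub, coeff_add, coeff_X_pow, coeff_C_mul, coeff_X, coeff_C] at h0 h1 h2
  norm_num at h0 h1 h2
  exact ⟨h2, h1, h0⟩

/-- A cubic polynomial over a perfect field is separable or has a simple root or is a cube. -/
theorem cubic_cases {κ : Type} [Field κ] [PerfectField κ] (t s n : κ) :
    (cp t s n).Separable ∨
    (∃ r : κ, (cp t s n).eval r = 0 ∧ (derivative (cp t s n)).eval r ≠ 0) ∨
    ∃ a : κ, t = 3 * a ∧ s = 3 * a ^ 2 ∧ n = a ^ 3 := by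
  by_cases hsep : (cp t s n).Separable
  · exact Or.inl hsep
  right
  rw [PerfectField.separable_iff_squarefree] at hsep
  unfold Squarefree at hsep
  push Not at hsep
  obtain ⟨g, ⟨q, hq⟩, hg⟩ := hsep
  have hf0 : cp t s n ≠ 0 := (cp_monic t s n).ne_zero
  have hg0 : g ≠ 0 := by
    rintro rfl
    rw [zero_mul, zero_mul] at hq
    exact hf0 hq
  have hq0 : q ≠ 0 := by
    rintro rfl
    rw [mul_zero] at hq
    exact hf0 hq
  have hdeg := congrArg natDegree hq
  rw [cp_natDegree, natDegree_mul (mul_ne_zero hg0 hg0) hq0, natDegree_mul hg0 hg0] at hdeg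
  have hg1 : g.natDegree ≠ 0 := by
    intro h0
    apply hg
    rw [eq_C_of_natDegree_eq_zero h0]
    refine isUnit_C.mpr (isUnit_iff_ne_zero.mpr ?_)
    intro h1
    apply hg0
    rw [eq_C_of_natDegree_eq_zero h0, h1, C_0]
  have hg2 : g.natDegree = 1 := by omega
  have hq2 : q.natDegree = 1 := by omega
  obtain ⟨u, hu, v, rfl⟩ := natDegree_eq_one.mp hg2
  obtain ⟨u', hu', v', rfl⟩ := natDegree_eq_one.mp hq2
  set a := -v / u with ha
  set b := -v' / u' with hb
  have e1 : C u * X + C v = C u * (X - C a) := by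
    have : C v = -(C u * C a) := by
      rw [← C_mul, ← C_neg, ha]
      congr 1
      field_simp
    rw [this]
    ring
  have e2 : C u' * X + C v' = C u' * (X - C b) := by
    have : C v' = -(C u' * C b) := by
      rw [← C_mul, ← C_neg, hb]
      congr 1
      field_simp
    rw [this]
    ring
  have e3 : cp t s n = C (u * u * u') * ((X - C a) * (X - C a) * (X - C b)) := by
    rw [hq, e1, e2, C_mul, C_mul]
    ring
  have hlead := (cp_monic t s n)
  have hm : ((X - C a) * (X - C a) * (X - C b) : κ[X]).Monic :=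
    ((monic_X_sub_C a).mul (monic_X_sub_C a)).mul (monic_X_sub_C b)
  have e4 : u * u * u' = 1 := by
    have h1 := hlead.leadingCoeff
    rw [e3, leadingCoeff_mul, leadingCoeff_C, hm.leadingCoeff, mul_one] at h1
    exact h1
  have e5 : cp t s n = cp (2 * a + b) (a ^ 2 + 2 * a * b) (a ^ 2 * b) := by
    rw [e3, e4, cp]
    simp only [C_add, C_mul, C_pow, C_ofNat, C_1]
    ring
  obtain ⟨h1, h2, h3⟩ := cp_inj e5
  by_cases hab : b = a
  · right
    refine ⟨a, ?_, ?_, ?_⟩
    · rw [h1, hab]; ring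
    · rw [h2, hab]; ring
    · rw [h3, hab]; ring
  · left
    refine ⟨b, ?_, ?_⟩
    · rw [cp_eval, h1, h2, h3]; ring
    · rw [cp_deriv, h1, h2]
      have : 3 * b ^ 2 - 2 * (2 * a + b) * b + (a ^ 2 + 2 * a * b) = (b - a) ^ 2 := by ring
      rw [this]
      exact pow_ne_zero 2 (sub_ne_zero.mpr hab)

end cases

section fld

variable {K E : Type} [Field K] [NumberField K] [Field E] [NumberField E] [Algebra K E]

/-- If the polynomial is integral and not a cube modulo `V` then the units are norms. -/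
theorem loc_notcube (hE : finrank K E = 3) {θ : E} {t s n : K} (hθ : aeval θ (cp t s n) = 0)
    (hgen : ∀ c : K, algebraMap K E c ≠ θ) (V : HeightOneSpectrum (𝓞 K))
    (h3 : V.valuation K (3 : K) = 1) (ht : V.valuation K t ≤ 1) (hs : V.valuation K s ≤ 1)
    (hn : V.valuation K n ≤ 1)
    (hnc : ¬ ∃ c : K, V.valuation K c ≤ 1 ∧ V.valuation K (t - 3 * c) < 1 ∧
      V.valuation K (s - 3 * c ^ 2) < 1 ∧ V.valuation K (n - c ^ 3) < 1)
    {b c₀ : K} (hbc : V.valuation K (b / c₀ ^ 3) = 1) : LocN 3 K E V b := by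
  have hb : b ≠ 0 := by
    rintro rfl
    rw [zero_div, map_zero] at hbc
    exact zero_ne_one hbc
  obtain ⟨t1, m1, hm1⟩ := V.exists_primeCompl_mul_eq_of_integer t ht
  obtain ⟨s1, m2, hm2⟩ := V.exists_primeCompl_mul_eq_of_integer s hs
  obtain ⟨n1, m3, hm3⟩ := V.exists_primeCompl_mul_eq_of_integer n hn
  set m : 𝓞 K := (m1 : 𝓞 K) * m2 * m3 with hm
  have hmV : m ∉ V.asIdeal := by
    intro h
    rcases V.isPrime.mem_or_mem h with h | h
    · rcases V.isPrime.mem_or_mem h with h | h
      · exact m1.2 h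
      · exact m2.2 h
    · exact m3.2 h
  set t' : 𝓞 K := m2 * m3 * t1 with ht'
  set s' : 𝓞 K := m * m1 * m3 * s1 with hs'
  set n' : 𝓞 K := m ^ 2 * m1 * m2 * n1 with hn'
  have et : (t' : K) = (m : K) * t := by
    show algebraMap (𝓞 K) K t' = algebraMap (𝓞 K) K m * t
    rw [ht', hm, map_mul, map_mul, map_mul, map_mul, ← hm1]
    ring
  have es : (s' : K) = (m : K) ^ 2 * s := by
    show algebraMap (𝓞 K) K s' = algebraMap (𝓞 K) K m ^ 2 * s
    rw [hs', map_mul, map_mul, map_mul, ← hm2, hm, map_mul, map_mul]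
    ring
  have en : (n' : K) = (m : K) ^ 3 * n := by
    show algebraMap (𝓞 K) K n' = algebraMap (𝓞 K) K m ^ 3 * n
    rw [hn', map_mul, map_mul, map_mul, map_pow, ← hm3, hm, map_mul, map_mul]
    ring
  clear_value t' s' n'
  have vm : V.valuation K (m : K) = 1 := V.valuation_eq_one_iff_notMem.mpr hmV
  have hm0 : (m : K) ≠ 0 := by
    intro h
    rw [h, map_zero] at vm
    exact zero_ne_one vm
  have hθ' : aeval (algebraMap K E m * θ) ((cp t' s' n').map (algebraMap (𝓞 K) K)) = 0 := by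
    rw [cp_map, cp_aeval]
    show _ - algebraMap K E (t' : K) * _ + algebraMap K E (s' : K) * _ - algebraMap K E (n' : K) = 0
    rw [et, es, en]
    rw [cp_aeval] at hθ
    simp only [map_mul, map_pow]
    linear_combination (algebraMap K E m) ^ 3 * hθ
  have hgen' : ∀ c : K, algebraMap K E c ≠ algebraMap K E m * θ := by
    intro c hc
    refine hgen (c / m) ?_
    have : algebraMap K E (m : K) ≠ 0 := (_root_.map_ne_zero _).mpr hm0
    rw [map_div₀, hc]
    field_simp
  have hmax := V.isMaximal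
  let _ : Field (𝓞 K ⧸ V.asIdeal) := Ideal.Quotient.field V.asIdeal
  have hfin : Finite (𝓞 K ⧸ V.asIdeal) := V.asIdeal.finiteQuotientOfFreeOfNeBot V.ne_bot
  set π := Ideal.Quotient.mk V.asIdeal with hπ
  rcases cubic_cases (π t') (π s') (π n') with h | ⟨r, hr1, hr2⟩ | ⟨a, ha1, ha2, ha3⟩
  · refine loc_unram Nat.prime_three hE V (by exact_mod_cast h3) (cp_monic _ _ _)
      (cp_natDegree _ _ _) hθ' hgen' ?_ hbc
    rw [cp_map]
    exact h
  · obtain ⟨β, rfl⟩ := Ideal.Quotient.mk_surjective r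
    refine loc_root Nat.prime_three hE V (cp_monic _ _ _) (cp_natDegree _ _ _) hθ' hgen'
      (apxRoot_of_simple (α := β) ?_ ?_) hb ((Valuation.ne_zero_iff _).mpr (by norm_num))
    · rw [← Ideal.Quotient.eq_zero_iff_mem, ← hr1, cp_eval, cp_eval]
      simp only [hπ, map_sub, map_add, map_mul, map_pow]
    · rw [← Ideal.Quotient.eq_zero_iff_mem]
      intro h
      apply hr2
      rw [← h, cp_deriv, cp_deriv]
      simp only [hπ, map_sub, map_add, map_mul, map_pow, map_ofNat]
  · exfalso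
    apply hnc
    obtain ⟨α, rfl⟩ := Ideal.Quotient.mk_surjective a
    have k1 : V.valuation K ((t' : K) - 3 * α) < 1 := by
      have h : π (t' - 3 * α) = 0 := by
        rw [map_sub, ha1, map_mul, map_ofNat]
        exact sub_self _
      rw [show ((t' : K) - 3 * (α : K)) = algebraMap (𝓞 K) K (t' - 3 * α) from by
        rw [map_sub, map_mul, map_ofNat]]
      exact (V.valuation_lt_one_iff_mem (K := K) _).mpr (Ideal.Quotient.eq_zero_iff_mem.mp h)
    have k2 : V.valuation K ((s' : K) - 3 * (α : K) ^ 2) < 1 := by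
      have h : π (s' - 3 * α ^ 2) = 0 := by
        rw [map_sub, ha2, map_mul, map_pow, map_ofNat]
        exact sub_self _
      rw [show ((s' : K) - 3 * (α : K) ^ 2) = algebraMap (𝓞 K) K (s' - 3 * α ^ 2) from by
        rw [map_sub, map_mul, map_pow, map_ofNat]]
      exact (V.valuation_lt_one_iff_mem (K := K) _).mpr (Ideal.Quotient.eq_zero_iff_mem.mp h)
    have k3 : V.valuation K ((n' : K) - (α : K) ^ 3) < 1 := by
      have h : π (n' - α ^ 3) = 0 := by
        rw [map_sub, ha3, map_pow]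
        exact sub_self _
      rw [show ((n' : K) - (α : K) ^ 3) = algebraMap (𝓞 K) K (n' - α ^ 3) from by
        rw [map_sub, map_pow]]
      exact (V.valuation_lt_one_iff_mem (K := K) _).mpr (Ideal.Quotient.eq_zero_iff_mem.mp h)
    refine ⟨α / m, ?_, ?_, ?_, ?_⟩
    · rw [map_div₀, vm, div_one]
      exact V.valuation_le_one α
    · have e : t - 3 * ((α : K) / m) = ((t' : K) - 3 * α) / m := by
        rw [et]; field_simp
      rw [e, map_div₀, vm, div_one]
      exact k1
    · have e : s - 3 * ((α : K) / m) ^ 2 = ((s' : K) - 3 * α ^ 2) / (m : K) ^ 2 := by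
        rw [es]; field_simp
      rw [e, map_div₀, map_pow, vm, one_pow, div_one]
      exact k2
    · have e : n - ((α : K) / m) ^ 3 = ((n' : K) - α ^ 3) / (m : K) ^ 3 := by
        rw [en]; field_simp
      rw [e, map_div₀, map_pow, vm, one_pow, div_one]
      exact k3

/-- If one root is smaller than the others then everything is a local norm. -/
theorem loc_simple_inv (hE : finrank K E = 3) {θ : E} {t s n : K} (hn0 : n ≠ 0)
    (hθ : aeval θ (cp t s n) = 0)
    (hgen : ∀ c : K, algebraMap K E c ≠ θ) (V : HeightOneSpectrum (𝓞 K))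
    (ht : V.valuation K (t * n) < V.valuation K s ^ 2)
    (hs : V.valuation K n ^ 2 < V.valuation K s ^ 3)
    {b : K} (hb : b ≠ 0) : LocN 3 K E V b := by
  have hvn : V.valuation K n ≠ 0 := (Valuation.ne_zero_iff _).mpr hn0
  have hvn' : 0 < V.valuation K n := zero_lt_iff.mpr hvn
  have hθ0 : θ ≠ 0 := by
    rintro rfl
    exact hgen 0 (map_zero _)
  have hn' : algebraMap K E n ≠ 0 := (_root_.map_ne_zero _).mpr hn0
  refine loc_simple (θ := θ⁻¹) (t := s / n) (s := t / n) (n := 1 / n) hE ?_ ?_ V ?_ ?_ hb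
  · rw [cp_aeval] at hθ ⊢
    simp only [map_div₀, map_one]
    have e : θ⁻¹ ^ 3 - algebraMap K E s / algebraMap K E n * θ⁻¹ ^ 2 +
        algebraMap K E t / algebraMap K E n * θ⁻¹ - 1 / algebraMap K E n =
        -(1 / algebraMap K E n) * θ⁻¹ ^ 3 * (θ ^ 3 - algebraMap K E t * θ ^ 2 +
          algebraMap K E s * θ - algebraMap K E n) := by
      field_simp
      ring
    rw [e, hθ, mul_zero]
  · intro c hc
    refine hgen c⁻¹ ?_
    rw [map_inv₀, hc, inv_inv]
  · rw [map_div₀, map_div₀, div_pow, div_lt_div_iff₀ hvn' (pow_pos hvn' 2)]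
    calc V.valuation K t * V.valuation K n ^ 2 = V.valuation K (t * n) * V.valuation K n := by
          rw [map_mul, pow_two, mul_assoc]
      _ < V.valuation K s ^ 2 * V.valuation K n := mul_lt_mul_of_pos_right ht hvn'
  · rw [map_div₀, map_div₀, map_one, div_pow, div_lt_div_iff₀ hvn' (pow_pos hvn' 3), one_mul]
    calc V.valuation K n ^ 3 = V.valuation K n ^ 2 * V.valuation K n := pow_succ _ _
      _ < V.valuation K s ^ 3 * V.valuation K n := mul_lt_mul_of_pos_right hs hvn'

end fld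

section dv

variable {K D : Type} [Field K] [NumberField K] [DivisionRing D] [Algebra K D] (C : Cub K D)

omit [NumberField K] in
theorem N_nf (h : D) (a b c : K) : C.N (a • (1 : D) + b • h + c • (h * h)) =
    nf (C.T h) (C.S h) (C.N h) a b c := by
  obtain ⟨Ω, _, _, f, hf, hT, hN, hA⟩ := C.spl
  apply (algebraMap K Ω).injective
  have e : ∀ (a : K) (x : D), f (a • x) = algebraMap K Ω a • f x := fun a x => by
    rw [map_smul, algebraMap_smul]
  rw [← hN, map_add, map_add, e, e, e, map_one, map_mul, mat_nf, hT, hA, hT, hN]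
  simp only [nf, map_add, map_mul, map_pow, map_sub, map_ofNat]
  rfl

omit [NumberField K] in
theorem cp_ne {y : D} (hy : ∀ c : K, y ≠ c • (1 : D)) (r : K) :
    (cp (C.T y) (C.S y) (C.N y)).eval r ≠ 0 := by
  intro h
  have h1 := N_nf C y r (-1) 0
  rw [cp_eval] at h
  have h2 : nf (C.T y) (C.S y) (C.N y) r (-1) 0 = r ^ 3 - C.T y * r ^ 2 + C.S y * r - C.N y := by
    rw [nf]
    ring
  rw [h2, h, C.N_eq_zero] at h1
  apply hy r
  rw [zero_smul, add_zero, neg_smul, one_smul, ← sub_eq_add_neg, sub_eq_zero] at h1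
  exact h1.symm

theorem locD_iff {E : Type} [Field E] [NumberField E] [Algebra K E] (hE : finrank K E = 3) {θ : E}
    {y : D} (hθ : aeval θ (cp (C.T y) (C.S y) (C.N y)) = 0)
    (hgen : ∀ c : K, algebraMap K E c ≠ θ) (V : HeightOneSpectrum (𝓞 K)) (b : K) :
    LocD C y V b ↔ LocN 3 K E V b := by
  obtain ⟨h1, h2⟩ := norm_nf hE hθ hgen
  have h9 : ((3 : ℕ) : K) ^ 2 = 9 := by norm_num
  constructor
  · rintro ⟨c, hc⟩
    refine ⟨algebraMap K E (c 0) + algebraMap K E (c 1) * θ + algebraMap K E (c 2) * (θ * θ), ?_⟩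
    rw [h1, ← N_nf C, h9]
    exact hc
  · rintro ⟨e, he⟩
    obtain ⟨a, b', c, rfl⟩ := h2 e
    refine ⟨![a, b', c], ?_⟩
    rw [h1, ← N_nf C, h9] at he
    exact he

/-- **Criterion (a)**: the characteristic polynomial is integral and not a cube modulo `V`. -/
theorem locD_notcube {y : D} (hy : ∀ c : K, y ≠ c • (1 : D)) (V : HeightOneSpectrum (𝓞 K))
    (h3 : V.valuation K (3 : K) = 1) (ht : V.valuation K (C.T y) ≤ 1)
    (hs : V.valuation K (C.S y) ≤ 1) (hn : V.valuation K (C.N y) ≤ 1)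
    (hnc : ¬ ∃ c : K, V.valuation K c ≤ 1 ∧ V.valuation K (C.T y - 3 * c) < 1 ∧
      V.valuation K (C.S y - 3 * c ^ 2) < 1 ∧ V.valuation K (C.N y - c ^ 3) < 1)
    {b c₀ : K} (hbc : V.valuation K (b / c₀ ^ 3) = 1) : LocD C y V b := by
  obtain ⟨E, _, _, _, θ, hE, hθ, hgen⟩ := exists_fld (cp_ne C hy)
  rw [locD_iff C hE hθ hgen]
  exact loc_notcube hE hθ hgen V h3 ht hs hn hnc hbc

/-- The case of a unit `b`. -/
theorem locD_notcube' {y : D} (hy : ∀ c : K, y ≠ c • (1 : D)) (V : HeightOneSpectrum (𝓞 K))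
    (h3 : V.valuation K (3 : K) = 1) (ht : V.valuation K (C.T y) ≤ 1)
    (hs : V.valuation K (C.S y) ≤ 1) (hn : V.valuation K (C.N y) ≤ 1)
    (hnc : ¬ ∃ c : K, V.valuation K c ≤ 1 ∧ V.valuation K (C.T y - 3 * c) < 1 ∧
      V.valuation K (C.S y - 3 * c ^ 2) < 1 ∧ V.valuation K (C.N y - c ^ 3) < 1)
    {b : K} (hb : V.valuation K b = 1) : LocD C y V b :=
  locD_notcube C hy V h3 ht hs hn hnc (c₀ := 1) (by rwa [one_pow, div_one])

/-- **Criterion (r1)**: one root is larger than the others. -/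
theorem locD_big {y : D} (hy : ∀ c : K, y ≠ c • (1 : D)) (V : HeightOneSpectrum (𝓞 K))
    (hs : V.valuation K (C.S y) < V.valuation K (C.T y) ^ 2)
    (hn : V.valuation K (C.N y) < V.valuation K (C.T y) ^ 3) {b : K} (hb : b ≠ 0) :
    LocD C y V b := by
  obtain ⟨E, _, _, _, θ, hE, hθ, hgen⟩ := exists_fld (cp_ne C hy)
  rw [locD_iff C hE hθ hgen]
  exact loc_simple hE hθ hgen V hs hn hb

omit [NumberField K] in
theorem N_ne {y : D} (hy : ∀ c : K, y ≠ c • (1 : D)) : C.N y ≠ 0 := by
  rw [Ne, C.N_eq_zero]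
  rintro rfl
  exact hy 0 (zero_smul _ _).symm

/-- **Criterion (r2)**: one root is smaller than the others. -/
theorem locD_small {y : D} (hy : ∀ c : K, y ≠ c • (1 : D)) (V : HeightOneSpectrum (𝓞 K))
    (ht : V.valuation K (C.T y * C.N y) < V.valuation K (C.S y) ^ 2)
    (hn : V.valuation K (C.N y) ^ 2 < V.valuation K (C.S y) ^ 3) {b : K} (hb : b ≠ 0) :
    LocD C y V b := by
  obtain ⟨E, _, _, _, θ, hE, hθ, hgen⟩ := exists_fld (cp_ne C hy)
  rw [locD_iff C hE hθ hgen]
  exact loc_simple_inv hE (N_ne C hy) hθ hgen V ht hn hb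

/-- **Criterion (b)**: norm one and not integral. -/
theorem locD_large {y : D} (hy : ∀ c : K, y ≠ c • (1 : D)) (V : HeightOneSpectrum (𝓞 K))
    (hn : C.N y = 1) (h : 1 < V.valuation K (C.T y) ∨ 1 < V.valuation K (C.S y)) {b : K}
    (hb : b ≠ 0) : LocD C y V b := by
  rcases le_or_gt (V.valuation K (C.S y)) (V.valuation K (C.T y)) with hle | hlt
  · have h1 : 1 < V.valuation K (C.T y) := by
      rcases h with h | h
      · exact h
      · exact h.trans_le hle
    refine locD_big C hy V (hle.trans_lt ?_) ?_ hb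
    · exact lt_self_pow₀ h1 (by norm_num)
    · rw [hn, map_one]
      exact one_lt_pow₀ h1 (by norm_num)
  · have h1 : 1 < V.valuation K (C.S y) := by
      rcases h with h | h
      · exact h.trans hlt
      · exact h
    refine locD_small C hy V ?_ ?_ hb
    · rw [hn, mul_one]
      exact hlt.trans (lt_self_pow₀ h1 (by norm_num))
    · rw [hn, map_one, one_pow]
      exact one_lt_pow₀ h1 (by norm_num)

/-- **Criterion (c)**: trace zero and a root in the completion. -/
theorem locD_trace_zero {y : D} (hy : ∀ c : K, y ≠ c • (1 : D)) (V : HeightOneSpectrum (𝓞 K))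
    (ht : C.T y = 0) (hn : V.valuation K (C.N y) ^ 2 < V.valuation K (C.S y) ^ 3) {b : K}
    (hb : b ≠ 0) : LocD C y V b := by
  refine locD_small C hy V ?_ hn hb
  rw [ht, zero_mul, map_zero]
  refine zero_lt_iff.mpr (pow_ne_zero 2 ?_)
  intro h
  rw [h, zero_pow (by norm_num)] at hn
  exact not_lt_zero hn

/-- **The norm theorem of the field `K[y]`**: the local conditions at all places give a norm. -/
theorem exists_N {y : D} (hy : ∀ c : K, y ≠ c • (1 : D)) {b : K} (hb : b ≠ 0)
    (h : ∀ V : HeightOneSpectrum (𝓞 K), LocD C y V b) :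
    ∃ c : Fin 3 → K, C.N (c 0 • (1 : D) + c 1 • y + c 2 • (y * y)) = b := by
  obtain ⟨E, _, _, _, θ, hE, hθ, hgen⟩ := exists_fld (cp_ne C hy)
  obtain ⟨e, he⟩ := hasse_norm_prime (p := 3) Nat.prime_three (by norm_num) hE (Units.mk0 b hb)
    fun V => (locD_iff C hE hθ hgen V b).mp (h V)
  obtain ⟨h1, h2⟩ := norm_nf hE hθ hgen
  obtain ⟨a, b', c, rfl⟩ := h2 e
  refine ⟨![a, b', c], ?_⟩
  rw [h1, ← N_nf C] at he
  exact he

end dv

end Vale.Agent.P011.H373
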