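import Vale.Agent.P011.H373.CubicNorm
import Mathlib.RingTheory.Polynomial.Resultant.Basic

/-!
Local criteria for the Hasse norm theorem of `CubicNorm`: places where the extension has a factor
of degree one, unramified places, norms from the completed algebra.
-/

open NumberField IsDedekindDomain Polynomial Module
open scoped IntermediateField TensorProduct

namespace Vale.Agent.P011.H373

open Vale.Agent.P011.Arith (Z0 exists_below val_above val_lt_val_iff exists_residue mk_eq_zero_iff)
open Vale.Agent.P011.ArP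

/-- The norm of `g(θ)` is the resultant of the minimal polynomial of `θ` and `g`. -/
theorem norm_eq_resultant {K E : Type} [Field K] [Field E] [Algebra K E] [FiniteDimensional K E]
    [Algebra.IsSeparable K E] {θ : E} (hθ : (minpoly K θ).natDegree = finrank K E) (g : K[X])
    {n : ℕ} (hn : g.natDegree ≤ n) :
    Algebra.norm K (aeval θ g) = resultant (minpoly K θ) g (finrank K E) n := by
  let Ω := AlgebraicClosure K
  have hmon : (minpoly K θ).Monic := minpoly.monic (Algebra.IsIntegral.isIntegral θ)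
  have hsp : ((minpoly K θ).map (algebraMap K Ω)).Splits := IsAlgClosed.splits _
  apply (algebraMap K Ω).injective
  rw [Algebra.norm_eq_prod_embeddings, ← resultant_map_map, ← hθ,
    ← natDegree_map_eq_of_injective (algebraMap K Ω).injective (minpoly K θ),
    resultant_eq_prod_eval _ _ n (natDegree_map_le.trans hn) hsp, (hmon.map _).leadingCoeff,
    one_pow, one_mul]
  have hgen : K⟮θ⟯ = ⊤ := by
    apply IntermediateField.eq_of_le_of_finrank_eq le_top
    rw [IntermediateField.finrank_top', ← hθ]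
    exact IntermediateField.adjoin.finrank (Algebra.IsIntegral.isIntegral θ)
  let pb := (IntermediateField.adjoin.powerBasis (Algebra.IsIntegral.isIntegral (R := K) θ)).map
    ((IntermediateField.equivOfEq hgen).trans IntermediateField.topEquiv)
  have hpb : pb.gen = θ := by simp [pb]
  classical
  have h1 := Fintype.prod_equiv (pb.liftEquiv' (B := Ω)) (fun σ : E →ₐ[K] Ω => σ (aeval θ g))
    (fun x => (g.map (algebraMap K Ω)).eval (x : Ω)) (fun σ => by
      rw [PowerBasis.liftEquiv'_apply_coe, hpb, ← Polynomial.aeval_algHom_apply, eval_map_algebraMap])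
  rw [h1, hpb]
  rw [Finset.prod_mem_multiset _ _ (fun x : Ω => (g.map (algebraMap K Ω)).eval x)
    (fun x => rfl), Finset.prod_eq_multiset_prod, Multiset.toFinset_val,
    Multiset.dedup_eq_self.mpr]
  · exact nodup_roots (.map (Algebra.IsSeparable.isSeparable K θ))

section res
variable {R : Type} [CommRing R]

theorem res_deg {f : R[X]} (hf : f.Monic) {g : R[X]} {n : ℕ} (hn : g.natDegree ≤ n) :
    resultant f g f.natDegree n = resultant f g := by
  obtain ⟨j, rfl⟩ := Nat.exists_eq_add_of_le hn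
  rw [resultant_add_right_deg _ _ _ _ _ le_rfl, hf.coeff_natDegree, one_pow, one_mul]

theorem res_congr {f : R[X]} (hf : f.Monic) {g g' : R[X]} (q : R[X]) (h : g' = g + f * q) :
    resultant f g' = resultant f g := by
  set n := max (max g.natDegree g'.natDegree) (q.natDegree + f.natDegree) with hn
  rw [← res_deg hf (n := n) (by omega), ← res_deg hf (g := g) (n := n) (by omega), h,
    resultant_add_mul_right _ _ _ _ _ (by omega) le_rfl]

theorem res_mul_left {f₁ f₂ : R[X]} (h1 : f₁.Monic) (h2 : f₂.Monic) (g : R[X]) :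
    resultant (f₁ * f₂) g = resultant f₁ g * resultant f₂ g := by
  rw [← resultant_mul_left _ _ _ _ le_rfl, h1.natDegree_mul h2]

theorem res_one {f : R[X]} (hf : f.Monic) : resultant f 1 = 1 := by
  rw [resultant_one_right, hf.coeff_natDegree, one_pow]

theorem res_map {S : Type} [CommRing S] [Nontrivial S] (φ : R →+* S) {f : R[X]} (hf : f.Monic)
    (g : R[X]) : resultant (f.map φ) (g.map φ) = φ (resultant f g) := by
  rw [← res_deg (hf.map φ) (n := g.natDegree) natDegree_map_le, hf.natDegree_map,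
      resultant_map_map]

/-- Modulo the value of a monic polynomial at a point. -/
theorem res_root [IsDomain R] {f : R[X]} (hf : f.Monic) (hd : f.natDegree ≠ 0) (α b : R) :
    ∃ (G : R[X]) (q : R), resultant f G = b * (derivative f).eval α ^ f.natDegree + f.eval α * q := by
  set h := f /ₘ (X - C α) with hh
  have hX : (X - C α).Monic := monic_X_sub_C α
  have hdiv : f = (X - C α) * h + C (f.eval α) := by
    have := modByMonic_add_div f (X - C α)
    rw [modByMonic_X_sub_C_eq_C_eval] at this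
    rw [add_comm]
    exact this.symm
  have hder : (derivative f).eval α = h.eval α := by
    have h1 := congrArg (fun F => (derivative F).eval α) hdiv
    simpa using h1
  have hhm : h.Monic := by
    have h1 : (X - C α) * h = f - C (f.eval α) := by
      rw [eq_sub_iff_add_eq]; exact hdiv.symm
    have h2 : (f - C (f.eval α)).Monic := by
      refine hf.sub_of_left ?_
      refine degree_C_le.trans_lt ?_
      rw [degree_eq_natDegree hf.ne_zero]
      exact_mod_cast Nat.pos_of_ne_zero hd
    rw [← h1] at h2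
    exact hX.of_mul_monic_left h2
  have hdeg : f.natDegree = 1 + h.natDegree := by
    have h1 : (f - C (f.eval α)).natDegree = f.natDegree := natDegree_sub_C
    rw [← h1, ← eq_sub_iff_add_eq.mpr hdiv.symm, hX.natDegree_mul hhm, natDegree_X_sub_C]
  set c := h.eval α with hc
  set G := C c + C (b - 1) * h with hG
  have h3 : resultant ((X - C α) * h) G = b * c ^ f.natDegree := by
    rw [res_mul_left hX hhm, res_congr hhm (C (b - 1)) (g := C c) (by rw [hG]; ring), hdeg]
    have e1 : resultant h (C c) = c ^ h.natDegree := by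
      rw [resultant_C_right, natDegree_C, pow_zero, one_mul]
    have e2 : resultant (X - C α) G = G.eval α := by
      have := resultant_X_sub_C_left G G.natDegree α le_rfl
      rwa [← natDegree_X_sub_C α] at this
    rw [e1, e2, hG]
    simp only [eval_add, eval_C, eval_mul]
    rw [← hc]
    ring
  set I := Ideal.span {f.eval α} with hI
  have h4 : Ideal.Quotient.mk I (resultant f G) = Ideal.Quotient.mk I (b * c ^ f.natDegree) := by
    have e1 : ((X - C α) * h).natDegree = f.natDegree := by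
      rw [hX.natDegree_mul hhm, natDegree_X_sub_C, hdeg]
    rw [← h3, e1, ← resultant_map_map, ← resultant_map_map]
    congr 1
    conv_lhs => rw [hdiv]
    rw [Polynomial.map_add, map_C, Ideal.Quotient.eq_zero_iff_mem.mpr
      (Ideal.mem_span_singleton_self _), C_0, add_zero]
  rw [Ideal.Quotient.eq, hI, Ideal.mem_span_singleton] at h4
  obtain ⟨q, hq⟩ := h4
  exact ⟨G, q, by rw [hder, ← hq]; ring⟩

end res

theorem exists_res {κ : Type} [Field κ] [Finite κ] {f : κ[X]} (hf : f.Monic)
    (hsep : f.Separable) (hdeg : f.natDegree ≠ 0) (c : κ) : ∃ g : κ[X], resultant f g = c := by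
  obtain ⟨h, hirr, hmon, f₂, hf₂⟩ : ∃ h : κ[X], Irreducible h ∧ h.Monic ∧ h ∣ f := by
    obtain ⟨h, hirr, hmon, hd⟩ := exists_monic_irreducible_factor f (by
      intro hu
      exact hdeg (natDegree_eq_zero_of_isUnit hu))
    exact ⟨h, hmon, hirr, hd⟩
  have hmon₂ : f₂.Monic := by
    rw [hf₂] at hf
    exact hmon.of_mul_monic_left hf
  have hcop : IsCoprime h f₂ := by
    rw [hf₂] at hsep
    exact hsep.isCoprime
  have : Fact (Irreducible h) := ⟨hirr⟩
  have hfd : FiniteDimensional κ (AdjoinRoot h) := (AdjoinRoot.powerBasis hirr.ne_zero).finite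
  have hfin : Finite (AdjoinRoot h) := Module.finite_of_finite κ
  obtain ⟨z, hz⟩ := FiniteField.norm_surjective κ (AdjoinRoot h) c
  obtain ⟨g₁, rfl⟩ := AdjoinRoot.mk_surjective z
  have hmp : minpoly κ (AdjoinRoot.root h) = h := by
    rw [AdjoinRoot.minpoly_root hirr.ne_zero, hmon.leadingCoeff, inv_one, C_1, mul_one]
  have hfr : finrank κ (AdjoinRoot h) = h.natDegree := by
    rw [(AdjoinRoot.powerBasis hirr.ne_zero).finrank, AdjoinRoot.powerBasis_dim]
  have h1 : resultant h g₁ = c := by
    have h2 := norm_eq_resultant (K := κ) (θ := AdjoinRoot.root h) (by rw [hmp, hfr]) g₁ le_rfl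
    rw [AdjoinRoot.aeval_eq, hz, hmp, hfr] at h2
    exact h2.symm
  obtain ⟨a, b, hab⟩ := hcop
  refine ⟨g₁ * (b * f₂) + a * h, ?_⟩
  rw [hf₂, res_mul_left hmon hmon₂, res_congr hmon (a * (1 - g₁)) (g := g₁),
    res_congr hmon₂ (b * (g₁ - 1)) (g := 1), res_one hmon₂, h1, mul_one]
  · linear_combination (1 : κ[X]) * hab
  · linear_combination g₁ * hab

/-- The polynomial `f` has approximate roots at `v`. -/
def ApxRoot {k : Type} [Field k] [NumberField k] (v : HeightOneSpectrum (𝓞 k)) (f : (𝓞 k)[X]) :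
    Prop :=
  ∀ γ : Z0, γ ≠ 0 → ∃ α : 𝓞 k, v.valuation k (algebraMap (𝓞 k) k (f.eval α)) < γ

/-- `b` is a norm up to a factor close to one at `v`. -/
abbrev LocN (p : ℕ) (k E : Type) [Field k] [NumberField k] [Field E] [Algebra k E]
    (v : HeightOneSpectrum (𝓞 k)) (b : k) : Prop :=
  ∃ e : E, v.valuation k (b / Algebra.norm k e - 1) < v.valuation k ((p : k) ^ 2)

section loc

variable {p : ℕ} {k E : Type} [Field k] [NumberField k] [Field E] [NumberField E] [Algebra k E]

theorem minpoly_eq (hp : p.Prime) (hE : finrank k E = p) {f : k[X]} (hf : f.Monic)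
    (hdeg : f.natDegree = p) {θ : E} (hθ : aeval θ f = 0) (hgen : ∀ c : k, algebraMap k E c ≠ θ) :
    minpoly k θ = f := by
  have hfd : FiniteDimensional k E := Module.finite_of_finrank_pos (by rw [hE]; exact hp.pos)
  have hint := Algebra.IsIntegral.isIntegral (R := k) θ
  have h1 : (minpoly k θ).natDegree ∣ p := by
    rw [← hE, ← IntermediateField.adjoin.finrank hint]
    exact Dvd.intro _ (finrank_mul_finrank k k⟮θ⟯ E)
  have h2 : (minpoly k θ).natDegree = p := by
    rcases (Nat.dvd_prime hp).mp h1 with h | h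
    · obtain ⟨c, hc⟩ := minpoly.natDegree_eq_one_iff.mp h
      exact absurd hc (hgen c)
    · exact h
  exact (eq_of_monic_of_dvd_of_natDegree_le (minpoly.monic hint) hf (minpoly.dvd k θ hθ)
    (by rw [h2, hdeg])).symm

/-- At a place not over `p` where `E` is unramified every unit times a `p`-th power is a norm
up to a factor close to one. -/
theorem loc_unram (hp : p.Prime) (hE : finrank k E = p) (v : HeightOneSpectrum (𝓞 k))
    (hv : v.valuation k (p : k) = 1) {f : (𝓞 k)[X]} (hf : f.Monic) (hdeg : f.natDegree = p)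
    {θ : E} (hθ : aeval θ (f.map (algebraMap (𝓞 k) k)) = 0) (hgen : ∀ c : k, algebraMap k E c ≠ θ)
    (hsep : (f.map (Ideal.Quotient.mk v.asIdeal)).Separable) {b c : k}
    (hbc : v.valuation k (b / c ^ p) = 1) : LocN p k E v b := by
  have hfd : FiniteDimensional k E := Module.finite_of_finrank_pos (by rw [hE]; exact hp.pos)
  have hmp := minpoly_eq hp hE (hf.map _) (by rw [hf.natDegree_map, hdeg]) hθ hgen
  have hmax := v.isMaximal
  let _ : Field (𝓞 k ⧸ v.asIdeal) := Ideal.Quotient.field v.asIdeal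
  have hfin : Finite (𝓞 k ⧸ v.asIdeal) := v.asIdeal.finiteQuotientOfFreeOfNeBot v.ne_bot
  have hc0 : c ≠ 0 := by
    rintro rfl
    rw [zero_pow hp.ne_zero, div_zero, map_zero] at hbc
    exact zero_ne_one hbc
  obtain ⟨r, hr⟩ := exists_residue v hbc.le
  set π := Ideal.Quotient.mk v.asIdeal with hπ
  obtain ⟨g', hg'⟩ := exists_res (hf.map π) hsep (by
    rw [hf.natDegree_map, hdeg]; exact hp.ne_zero) (π r)
  obtain ⟨g, rfl⟩ := Polynomial.map_surjective π Ideal.Quotient.mk_surjective g'
  have h1 : π (resultant f g) = π r := by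
    rw [← hg', ← res_deg (hf.map π) (n := g.natDegree) natDegree_map_le, hf.natDegree_map,
      resultant_map_map]
  set R : 𝓞 k := resultant f g with hR
  have h2 : v.valuation k ((R : k) - (r : k)) < 1 := by
    have h3 : R - r ∈ v.asIdeal := by
      rw [← Ideal.Quotient.eq_zero_iff_mem, map_sub, sub_eq_zero]
      exact h1
    exact (v.valuation_lt_one_iff_mem (K := k) (R - r)).mpr h3
  have h4 : v.valuation k (b / c ^ p - R) < 1 := by
    have e : b / c ^ p - R = (b / c ^ p - r) - (R - r) := by ring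
    rw [e]
    refine (Valuation.map_sub _ _ _).trans_lt (max_lt ?_ h2)
    rw [Valuation.map_sub_swap]
    exact hr
  have h5 : v.valuation k (R : k) = 1 := by
    have e : (R : k) = b / c ^ p - (b / c ^ p - R) := by ring
    rw [e, Valuation.map_sub_eq_of_lt_left _ (by rw [hbc]; exact h4)]
    exact hbc
  have hR0 : (R : k) ≠ 0 := by
    intro h
    rw [h, map_zero] at h5
    exact zero_ne_one h5
  refine ⟨algebraMap k E c * aeval θ (g.map (algebraMap (𝓞 k) k)), ?_⟩
  have h6 : Algebra.norm k (aeval θ (g.map (algebraMap (𝓞 k) k))) = (R : k) := by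
    rw [norm_eq_resultant (by rw [hmp, hf.natDegree_map, hdeg, hE]) _ natDegree_map_le, hmp,
      resultant_map_map, hE, hR, hdeg]
  rw [map_mul, Algebra.norm_algebraMap, hE, h6, map_pow, hv, one_pow]
  have h7 : b / (c ^ p * (R : k)) - 1 = (b / c ^ p - R) / R := by
    field_simp
  rw [h7, map_div₀, h5, div_one]
  exact h4

theorem quot_aux {K : Type} [Field K] {x t c y r : K} {p : ℕ} (ht : t ≠ 0) (hc : c ≠ 0)
    (hr : r ≠ 0) (h : r = x * c ^ p + y) : x / t ^ p / ((c * t)⁻¹ ^ p * r) - 1 = - y / r := by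
  have ht' : t ^ p ≠ 0 := pow_ne_zero p ht
  have hc' : c ^ p ≠ 0 := pow_ne_zero p hc
  rw [inv_pow, mul_pow]
  field_simp
  rw [h]
  ring

theorem val_int_le (v : HeightOneSpectrum (𝓞 k)) (x : 𝓞 k) :
    v.valuation k (algebraMap (𝓞 k) k x) ≤ 1 := v.valuation_le_one x

/-- If the minimal polynomial of a generator has a root in the completion then every element is
locally a norm. -/
theorem loc_root (hp : p.Prime) (hE : finrank k E = p) (v : HeightOneSpectrum (𝓞 k))
    {f : (𝓞 k)[X]} (hf : f.Monic) (hdeg : f.natDegree = p)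
    {θ : E} (hθ : aeval θ (f.map (algebraMap (𝓞 k) k)) = 0) (hgen : ∀ c : k, algebraMap k E c ≠ θ)
    (hroot : ApxRoot v f) {b : k} (hb : b ≠ 0) {γ : Z0} (hγ : γ ≠ 0) :
    ∃ e : E, v.valuation k (b / Algebra.norm k e - 1) < γ := by
  have hfd : FiniteDimensional k E := Module.finite_of_finrank_pos (by rw [hE]; exact hp.pos)
  have hmp := minpoly_eq hp hE (hf.map _) (by rw [hf.natDegree_map, hdeg]) hθ hgen
  set ι := algebraMap (𝓞 k) k with hι
  have hιi : Function.Injective ι := FaithfulSMul.algebraMap_injective (𝓞 k) k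
  -- the discriminant
  have hsep : (f.map ι).Separable := by
    rw [← hmp]; exact Algebra.IsSeparable.isSeparable k θ
  have hd0 : resultant f (derivative f) ≠ 0 := by
    intro h0
    have h1 : resultant (f.map ι) (derivative (f.map ι)) ≠ 0 := resultant_ne_zero _ _ hsep
    apply h1
    rw [derivative_map, res_map ι hf, h0, map_zero]
  obtain ⟨A, B, -, -, hAB⟩ := exists_mul_add_mul_eq_C_resultant f (derivative f) le_rfl le_rfl
    (Or.inl (by rw [hdeg]; exact hp.ne_zero))
  set d := resultant f (derivative f) with hd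
  -- make `b` integral
  obtain ⟨b₁, b₂, hb₂, hb12⟩ := IsFractionRing.div_surjective (A := 𝓞 k) b
  rw [← hι] at hb12
  have hb₂0 : b₂ ≠ 0 := nonZeroDivisors.ne_zero hb₂
  have hb₁0 : b₁ ≠ 0 := by
    rintro rfl
    rw [map_zero, zero_div] at hb12
    exact hb hb12.symm
  set B₀ : 𝓞 k := b₁ * b₂ ^ (p - 1) with hB₀
  have hB₀0 : B₀ ≠ 0 := mul_ne_zero hb₁0 (pow_ne_zero _ hb₂0)
  have hbB : b = ι B₀ / ι b₂ ^ p := by
    rw [← hb12, hB₀, map_mul, map_pow]
    have h1 : (ι b₂) ^ p = ι b₂ ^ (p - 1) * ι b₂ := by rw [← pow_succ, Nat.sub_add_cancel hp.pos]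
    have h2 : ι b₂ ≠ 0 := (map_ne_zero_iff ι hιi).mpr hb₂0
    rw [h1]
    field_simp
  set w := v.valuation k with hw
  have hne : ∀ x : 𝓞 k, x ≠ 0 → w (ι x) ≠ 0 := fun x hx =>
    (Valuation.ne_zero_iff w).mpr ((map_ne_zero_iff ι hιi).mpr hx)
  set δ : Z0 := min γ 1 * (w (ι B₀) * w (ι d) ^ p) with hδ
  have hm0 : min γ 1 ≠ 0 := by
    rcases min_choice γ 1 with h | h <;> rw [h]
    · exact hγ
    · exact one_ne_zero
  have hδ0 : δ ≠ 0 := mul_ne_zero hm0 (mul_ne_zero (hne _ hB₀0) (pow_ne_zero _ (hne _ hd0)))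
  have hdle : w (ι d) ≤ 1 := val_int_le v d
  have hδd : δ ≤ w (ι d) := by
    calc δ ≤ 1 * (1 * w (ι d) ^ p) := by
          rw [hδ]
          exact mul_le_mul' (min_le_right _ _) (mul_le_mul' (val_int_le v B₀) le_rfl)
      _ = w (ι d) ^ p := by rw [one_mul, one_mul]
      _ ≤ w (ι d) ^ 1 := pow_le_pow_right_of_le_one' hdle hp.one_le
      _ = w (ι d) := pow_one _
  obtain ⟨α, hα⟩ := hroot δ hδ0
  have hder : w (ι d) ≤ w (ι ((derivative f).eval α)) := by
    have h1 : ι d = ι (f.eval α * A.eval α) + ι ((derivative f).eval α * B.eval α) := by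
      rw [← map_add, ← eval_mul, ← eval_mul, ← eval_add, hAB, eval_C]
    have h2 : w (ι (f.eval α * A.eval α)) < w (ι d) := by
      rw [map_mul, map_mul]
      calc w (ι (f.eval α)) * w (ι (A.eval α)) ≤ w (ι (f.eval α)) * 1 :=
            mul_le_mul' le_rfl (val_int_le v _)
        _ < w (ι d) := by rw [mul_one]; exact hα.trans_le hδd
    have h3 : w (ι ((derivative f).eval α * B.eval α)) = w (ι d) := by
      have e : ι ((derivative f).eval α * B.eval α) = ι d - ι (f.eval α * A.eval α) := by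
        rw [h1]; ring
      rw [e, Valuation.map_sub_eq_of_lt_left _ h2]
    rw [← h3, map_mul, map_mul]
    calc w (ι ((derivative f).eval α)) * w (ι (B.eval α)) ≤
          w (ι ((derivative f).eval α)) * 1 := mul_le_mul' le_rfl (val_int_le v _)
      _ = _ := mul_one _
  obtain ⟨G, q, hG⟩ := res_root hf (by rw [hdeg]; exact hp.ne_zero) α B₀
  set c := (derivative f).eval α with hc
  set R := resultant f G with hR
  rw [hdeg] at hG
  have hw6 : w (ι (B₀ * c ^ p)) = w (ι B₀) * w (ι c) ^ p := by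
    rw [map_mul ι B₀ (c ^ p), map_mul w, map_pow, map_pow]
  have hc0 : c ≠ 0 := by
    intro h0
    rw [h0, map_zero, map_zero] at hder
    exact hne d hd0 (le_antisymm hder zero_le)
  have h5 : w (ι (f.eval α * q)) < min γ 1 * w (ι (B₀ * c ^ p)) := by
    rw [map_mul, map_mul]
    calc w (ι (f.eval α)) * w (ι q) ≤ w (ι (f.eval α)) * 1 := mul_le_mul' le_rfl (val_int_le v _)
      _ = w (ι (f.eval α)) := mul_one _
      _ < δ := hα
      _ ≤ min γ 1 * w (ι (B₀ * c ^ p)) := by
        rw [hδ, hw6]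
        exact mul_le_mul' le_rfl (mul_le_mul' le_rfl (pow_le_pow_left' hder p))
  have h5' : w (ι (f.eval α * q)) < w (ι (B₀ * c ^ p)) := by
    refine h5.trans_le ?_
    calc min γ 1 * w (ι (B₀ * c ^ p)) ≤ 1 * w (ι (B₀ * c ^ p)) :=
          mul_le_mul' (min_le_right _ _) le_rfl
      _ = _ := one_mul _
  have h6 : w (ι R) = w (ι (B₀ * c ^ p)) := by
    rw [hG, map_add, Valuation.map_add_eq_of_lt_left _ h5']
  have hR0 : ι R ≠ 0 := by
    intro h0
    rw [h0, map_zero] at h6
    exact hne _ (mul_ne_zero hB₀0 (pow_ne_zero p hc0)) h6.symm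
  have hιc : ι c ≠ 0 := (map_ne_zero_iff ι hιi).mpr hc0
  have hιb : ι b₂ ≠ 0 := (map_ne_zero_iff ι hιi).mpr hb₂0
  refine ⟨algebraMap k E (ι c * ι b₂)⁻¹ * aeval θ (G.map ι), ?_⟩
  have h7 : Algebra.norm k (aeval θ (G.map ι)) = ι R := by
    rw [norm_eq_resultant (by rw [hmp, hf.natDegree_map, hdeg, hE]) _ natDegree_map_le, hmp,
      resultant_map_map, hE, hR, hdeg]
  rw [map_mul, Algebra.norm_algebraMap, hE, h7]
  have h8 : b / ((ι c * ι b₂)⁻¹ ^ p * ι R) - 1 = - ι (f.eval α * q) / ι R := by
    rw [hbB]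
    exact quot_aux hιb hιc hR0 (by rw [hG, map_add, map_mul ι B₀ (c ^ p), map_pow])
  rw [h8, map_div₀, Valuation.map_neg, h6]
  have h9 : w (ι (B₀ * c ^ p)) ≠ 0 := hne _ (mul_ne_zero hB₀0 (pow_ne_zero p hc0))
  rw [div_lt_iff₀ (zero_lt_iff.mpr h9)]
  exact h5.trans_le (mul_le_mul' (min_le_left _ _) le_rfl)

end loc

section apx

variable {k : Type} [Field k] [NumberField k]

omit [NumberField k] in
/-- One Newton step. -/
theorem newton_step (I : Ideal (𝓞 k)) (hI : I.IsMaximal) {f : (𝓞 k)[X]} {n : ℕ} {α : 𝓞 k}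
    (h1 : f.eval α ∈ I ^ (n + 1)) (h2 : (derivative f).eval α ∉ I) :
    ∃ β : 𝓞 k, f.eval β ∈ I ^ (n + 2) ∧ (derivative f).eval β ∉ I := by
  obtain ⟨s, i, hi, hs⟩ := hI.exists_inv h2
  have hI1 : I ^ (n + 1) ≤ I := Ideal.pow_le_self (by omega)
  obtain ⟨c, hc⟩ := f.binomExpansion α (-(f.eval α * s))
  refine ⟨α + -(f.eval α * s), ?_, ?_⟩
  · rw [hc]
    have e : f.eval α + (derivative f).eval α * -(f.eval α * s) + c * (-(f.eval α * s)) ^ 2 =
        f.eval α * i + (f.eval α * f.eval α) * (c * s ^ 2) := by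
      have : i = 1 - s * (derivative f).eval α := by linear_combination hs
      rw [this]; ring
    rw [e]
    refine Ideal.add_mem _ ?_ (Ideal.mul_mem_right _ _ ?_)
    · rw [pow_succ]
      exact Ideal.mul_mem_mul h1 hi
    · rw [pow_succ]
      exact Ideal.mul_mem_mul h1 (hI1 h1)
  · intro h3
    apply h2
    obtain ⟨q, hq⟩ := (derivative f).evalSubFactor (α + -(f.eval α * s)) α
    have h4 : (derivative f).eval α = (derivative f).eval (α + -(f.eval α * s)) +
        q * (f.eval α * s) := by linear_combination -hq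
    rw [h4]
    exact Ideal.add_mem _ h3 (Ideal.mul_mem_left _ _ (Ideal.mul_mem_right _ _ (hI1 h1)))

theorem exists_exp_lt {γ : Z0} (hγ : γ ≠ 0) : ∃ n : ℕ, WithZero.exp (-(n : ℤ)) < γ := by
  obtain ⟨m, rfl⟩ : ∃ m : ℤ, γ = WithZero.exp m := ⟨_, (WithZero.exp_log hγ).symm⟩
  refine ⟨m.natAbs + 1, ?_⟩
  rw [WithZero.exp_lt_exp]
  omega

theorem apxRoot_of_pow {v : HeightOneSpectrum (𝓞 k)} {f : (𝓞 k)[X]}
    (h : ∀ n : ℕ, ∃ α : 𝓞 k, f.eval α ∈ v.asIdeal ^ n) : ApxRoot v f := by
  intro γ hγ
  obtain ⟨n, hn⟩ := exists_exp_lt hγ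
  obtain ⟨α, hα⟩ := h n
  refine ⟨α, lt_of_le_of_lt ?_ hn⟩
  rw [v.valuation_of_algebraMap]
  exact (v.intValuation_le_pow_iff_mem _ n).mpr hα

/-- Hensel: a simple root modulo `v` gives approximate roots. -/
theorem apxRoot_of_simple {v : HeightOneSpectrum (𝓞 k)} {f : (𝓞 k)[X]} {α : 𝓞 k}
    (h1 : f.eval α ∈ v.asIdeal) (h2 : (derivative f).eval α ∉ v.asIdeal) : ApxRoot v f := by
  have hmax : v.asIdeal.IsMaximal := v.isMaximal
  have h : ∀ n : ℕ, ∃ β : 𝓞 k, f.eval β ∈ v.asIdeal ^ (n + 1) ∧
      (derivative f).eval β ∉ v.asIdeal := by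
    intro n
    induction n with
    | zero => exact ⟨α, by rwa [zero_add, pow_one], h2⟩
    | succ n ih =>
      obtain ⟨β, hβ, hβ'⟩ := ih
      exact newton_step _ hmax hβ hβ'
  apply apxRoot_of_pow
  intro n
  obtain ⟨β, hβ, -⟩ := h n
  exact ⟨β, Ideal.pow_le_pow_right (Nat.le_succ n) hβ⟩

/-- Approximate roots are inherited by places above. -/
theorem ApxRoot.map {K : Type} [Field K] [NumberField K] [Algebra k K]
    {v : HeightOneSpectrum (𝓞 k)} {w : HeightOneSpectrum (𝓞 K)}
    (hvw : Ideal.comap (algebraMap (𝓞 k) (𝓞 K)) w.asIdeal = v.asIdeal) {f : (𝓞 k)[X]}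
    (h : ApxRoot v f) : ApxRoot w (f.map (algebraMap (𝓞 k) (𝓞 K))) := by
  intro γ hγ
  obtain ⟨e, he, hval⟩ := val_above (F := k) (E := K) hvw
  have hm0 : min γ 1 ≠ 0 := by
    rcases min_choice γ 1 with h | h <;> rw [h]
    · exact hγ
    · exact one_ne_zero
  obtain ⟨α, hα⟩ := h (min γ 1) hm0
  refine ⟨algebraMap (𝓞 k) (𝓞 K) α, ?_⟩
  rw [eval_map_algebraMap, aeval_algebraMap_apply_eq_algebraMap_eval]
  have e1 : algebraMap (𝓞 K) K (algebraMap (𝓞 k) (𝓞 K) (f.eval α)) =
      algebraMap k K (algebraMap (𝓞 k) k (f.eval α)) := by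
    rw [← IsScalarTower.algebraMap_apply, ← IsScalarTower.algebraMap_apply]
  rw [e1, hval]
  calc v.valuation k (algebraMap (𝓞 k) k (f.eval α)) ^ e ≤
        v.valuation k (algebraMap (𝓞 k) k (f.eval α)) ^ 1 :=
        pow_le_pow_right_of_le_one' (v.valuation_le_one _) (Nat.one_le_iff_ne_zero.mpr he)
    _ = v.valuation k (algebraMap (𝓞 k) k (f.eval α)) := pow_one _
    _ < min γ 1 := hα
    _ ≤ γ := min_le_left _ _

theorem val_le_of_monic {R L Γ₀ : Type} [CommRing R] [Field L]
    [LinearOrderedCommGroupWithZero Γ₀] (w : Valuation L Γ₀) (φ : R →+* L) (hφ : ∀ r, w (φ r) ≤ 1)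
    {f : R[X]} (hf : f.Monic) {α : L} (h : eval₂ φ α f = 0) : w α ≤ 1 := by
  let ψ : R →+* w.integer := φ.codRestrict w.integer hφ
  have hint : IsIntegral w.integer α := by
    refine ⟨f.map ψ, hf.map ψ, ?_⟩
    rw [eval₂_map]
    exact h
  exact Valuation.Integers.mem_of_integral (Valuation.integer.integers w) hint

theorem eval_close {R L Γ₀ : Type} [CommRing R] [Field L]
    [LinearOrderedCommGroupWithZero Γ₀] (w : Valuation L Γ₀) (φ : R →+* L) (hφ : ∀ r, w (φ r) ≤ 1)
    {f : R[X]} {α β : L} (hα : w α ≤ 1) (hβ : w β ≤ 1) :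
    w (eval₂ φ α f - eval₂ φ β f) ≤ w (α - β) := by
  let ψ : R →+* w.integer := φ.codRestrict w.integer hφ
  obtain ⟨q, hq⟩ := (f.map ψ).evalSubFactor ⟨α, hα⟩ ⟨β, hβ⟩
  have h1 := congrArg Subtype.val hq
  have h2 : ∀ (γ : L) (hγ : w γ ≤ 1), (((f.map ψ).eval (⟨γ, hγ⟩ : w.integer) : w.integer) : L) =
      eval₂ φ γ f := by
    intro γ hγ
    rw [eval_map, ← Subring.subtype_apply, hom_eval₂]
    rfl
  have h3 : eval₂ φ α f - eval₂ φ β f = (q : L) * (α - β) := by
    rw [← h2 α hα, ← h2 β hβ]
    exact h1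
  rw [h3, map_mul]
  exact (mul_le_mul' q.2 le_rfl).trans (one_mul _).le

theorem isOpen_near (v : HeightOneSpectrum (𝓞 k)) (α : v.adicCompletion k) {γ : Z0} (hγ : γ ≠ 0) :
    IsOpen {y : v.adicCompletion k | Valued.v (y - α) < γ} := by
  obtain ⟨n, hn⟩ := exists_exp_lt hγ
  obtain ⟨π, hπ⟩ := v.valuation_exists_uniformizer k
  have hc : Valued.v (algebraMap k (v.adicCompletion k) (π ^ n)) < γ := by
    refine lt_of_le_of_lt (le_of_eq ?_) hn
    refine (v.valuedAdicCompletion_eq_valuation' (π ^ n)).trans ?_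
    rw [map_pow, hπ, ← WithZero.exp_nsmul]
    simp
  have hc0 : Valued.v (algebraMap k (v.adicCompletion k) (π ^ n)) ≠ (0 : Z0) := by
    rw [Valuation.ne_zero_iff]
    refine (_root_.map_ne_zero _).mpr (pow_ne_zero n ?_)
    rintro rfl
    rw [map_zero] at hπ
    exact WithZero.exp_ne_zero hπ.symm
  rw [isOpen_iff_mem_nhds]
  intro y hy
  rw [Valued.mem_nhds]
  refine ⟨Units.mk0 (Valued.v.restrict (algebraMap k (v.adicCompletion k) (π ^ n))) ?_,
    fun z hz => ?_⟩
  · rw [Valuation.ne_zero_iff]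
    exact (Valuation.ne_zero_iff _).mp hc0
  · have h1 : Valued.v (z - y) < Valued.v (algebraMap k (v.adicCompletion k) (π ^ n)) :=
      (Valuation.restrict_lt_iff _).mp hz
    have e : z - α = (z - y) + (y - α) := by ring
    show Valued.v (z - α) < γ
    rw [e]
    exact (Valued.v.map_add _ _).trans_lt (max_lt (h1.trans hc) hy)

/-- A root in the completion gives approximate roots. -/
theorem apxRoot_of_root {v : HeightOneSpectrum (𝓞 k)} {f : (𝓞 k)[X]} (hf : f.Monic)
    {α : v.adicCompletion k}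
    (h : eval₂ ((algebraMap k (v.adicCompletion k)).comp (algebraMap (𝓞 k) k)) α f = 0) :
    ApxRoot v f := by
  set φ := (algebraMap k (v.adicCompletion k)).comp (algebraMap (𝓞 k) k) with hφ
  have hval : ∀ x : k, Valued.v (algebraMap k (v.adicCompletion k) x) = v.valuation k x :=
    fun x => v.valuedAdicCompletion_eq_valuation' x
  have hφ1 : ∀ r, Valued.v (φ r) ≤ (1 : Z0) := fun r => by
    rw [hφ, RingHom.comp_apply, hval]
    exact v.valuation_le_one r
  have hα : Valued.v α ≤ (1 : Z0) := val_le_of_monic Valued.v φ hφ1 hf h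
  intro γ hγ
  have hm0 : min γ 1 ≠ 0 := by
    rcases min_choice γ 1 with h | h <;> rw [h]
    · exact hγ
    · exact one_ne_zero
  -- approximate by an element of the field
  obtain ⟨x, hx⟩ : ∃ x : k, Valued.v (algebraMap k (v.adicCompletion k) x - α) < min γ 1 := by
    have hopen := isOpen_near v α hm0
    obtain ⟨x, hx⟩ := (v.denseRange_algebraMap (K := k)).exists_mem_open hopen
      ⟨α, by show Valued.v (α - α) < min γ 1; rw [sub_self, map_zero]; exact zero_lt_iff.mpr hm0⟩
    exact ⟨x, hx⟩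
  have hx1 : v.valuation k x ≤ 1 := by
    rw [← hval]
    have e : algebraMap k (v.adicCompletion k) x = (algebraMap k (v.adicCompletion k) x - α) + α := by
      ring
    rw [e]
    exact (Valued.v.map_add _ _).trans (max_le (hx.le.trans (min_le_right _ _)) hα)
  obtain ⟨r, hr⟩ := v.exists_valuation_sub_lt_of_integer hx1 (Units.mk0 _ hm0)
  have hr' : Valued.v (φ r - α) < min γ 1 := by
    have e : φ r - α = (φ r - algebraMap k (v.adicCompletion k) x) +
      (algebraMap k (v.adicCompletion k) x - α) := by ring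
    rw [e]
    refine (Valued.v.map_add _ _).trans_lt (max_lt ?_ hx)
    rw [hφ, RingHom.comp_apply, ← map_sub, hval]
    exact hr
  refine ⟨r, ?_⟩
  have h2 : v.valuation k (algebraMap (𝓞 k) k (f.eval r)) = Valued.v (φ (f.eval r)) := by
    rw [hφ, RingHom.comp_apply, hval]
  rw [h2]
  -- the values at `r` and `α` are close
  have h3 := eval_close (Valued.v : Valuation (v.adicCompletion k) Z0) φ hφ1 (f := f) (hφ1 r) hα
  rw [h, sub_zero, eval₂_hom] at h3
  exact h3.trans_lt (hr'.trans_le (min_le_left _ _))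

end apx

section tens

variable {k E : Type} [Field k] [NumberField k] [Field E] [Algebra k E]

/-- A norm close to a norm. -/
theorem loc_congr {v : HeightOneSpectrum (𝓞 k)} {b b' : k} {γ : Z0} (hγ : γ ≤ 1)
    (h : ∃ e : E, v.valuation k (b / Algebra.norm k e - 1) < γ)
    (hb : v.valuation k (b' / b - 1) < γ) :
    ∃ e : E, v.valuation k (b' / Algebra.norm k e - 1) < γ := by
  obtain ⟨e, he⟩ := h
  refine ⟨e, ?_⟩
  have hb0 : b ≠ 0 := by
    rintro rfl
    rw [div_zero, zero_sub, Valuation.map_neg, map_one] at hb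
    exact absurd hb (not_lt.mpr hγ)
  have h1 : b' / Algebra.norm k e - 1 = (b' / b - 1) * (b / Algebra.norm k e - 1) +
      ((b' / b - 1) + (b / Algebra.norm k e - 1)) := by
    have : b' / Algebra.norm k e = (b' / b) * (b / Algebra.norm k e) := by
      field_simp
    rw [this]; ring
  rw [h1]
  refine (Valuation.map_add _ _ _).trans_lt (max_lt ?_
    ((Valuation.map_add _ _ _).trans_lt (max_lt hb he)))
  rw [map_mul]
  calc _ ≤ v.valuation k (b' / b - 1) * 1 := mul_le_mul' le_rfl (he.le.trans hγ)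
    _ < γ := by rwa [mul_one]

variable [FiniteDimensional k E]

omit [FiniteDimensional k E] in
/-- Norms from the completed algebra are close to global norms. -/
theorem loc_of_det {n : Type} [Fintype n] [DecidableEq n] (bas : Basis n k E)
    (v : HeightOneSpectrum (𝓞 k)) {b : k} (hb : b ≠ 0) {x : n → v.adicCompletion k}
    (hx : (∑ i, x i • (Algebra.leftMulMatrix bas (bas i)).map
      (algebraMap k (v.adicCompletion k))).det = algebraMap k (v.adicCompletion k) b)
    {γ : Z0} (hγ : γ ≠ 0) : ∃ e : E, v.valuation k (b / Algebra.norm k e - 1) < γ := by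
  set ι := algebraMap k (v.adicCompletion k) with hι
  have hval : ∀ x : k, Valued.v (ι x) = v.valuation k x :=
    fun x => v.valuedAdicCompletion_eq_valuation' x
  set F : (n → v.adicCompletion k) → v.adicCompletion k := fun x =>
    (∑ i, x i • (Algebra.leftMulMatrix bas (bas i)).map ι).det with hF
  have hFc : Continuous F := by
    apply Continuous.matrix_det
    refine continuous_finsetSum _ fun i _ => ?_
    exact (continuous_apply i).smul continuous_const
  have hFk : ∀ y : n → k, F (fun i => ι (y i)) = ι (Algebra.norm k (∑ i, y i • bas i)) := by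
    intro y
    have h1 : (∑ i, ι (y i) • (Algebra.leftMulMatrix bas (bas i)).map ι) =
        ι.mapMatrix (Algebra.leftMulMatrix bas (∑ i, y i • bas i)) := by
      rw [map_sum, map_sum]
      refine Finset.sum_congr rfl fun i _ => ?_
      rw [map_smul]
      refine Matrix.ext fun a c => ?_
      rw [Matrix.smul_apply, Matrix.map_apply, RingHom.mapMatrix_apply, Matrix.map_apply,
        Matrix.smul_apply, smul_eq_mul, smul_eq_mul, map_mul]
    show (∑ i, ι (y i) • (Algebra.leftMulMatrix bas (bas i)).map ι).det = _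
    rw [h1, Algebra.norm_eq_matrix_det bas, RingHom.map_det]
  have hm0 : min γ 1 * v.valuation k b ≠ 0 := by
    refine mul_ne_zero ?_ ((Valuation.ne_zero_iff _).mpr hb)
    rcases min_choice γ 1 with h | h <;> rw [h]
    · exact hγ
    · exact one_ne_zero
  have hopen : IsOpen (F ⁻¹' {y | Valued.v (y - ι b) < min γ 1 * v.valuation k b}) :=
    (isOpen_near v (ι b) hm0).preimage hFc
  have hdense : DenseRange (Pi.map (fun (_ : n) => (ι : k → v.adicCompletion k))) :=
    DenseRange.piMap fun _ => v.denseRange_algebraMap (K := k)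
  obtain ⟨y, hy⟩ := hdense.exists_mem_open hopen ⟨x, by
    have h0 : F x = ι b := hx
    show Valued.v (F x - ι b) < _
    rw [h0, sub_self, map_zero]
    exact zero_lt_iff.mpr hm0⟩
  refine ⟨∑ i, y i • bas i, ?_⟩
  have h1 : Valued.v (F (fun i => ι (y i)) - ι b) < min γ 1 * v.valuation k b := hy
  rw [hFk, ← map_sub, hval] at h1
  set N := Algebra.norm k (∑ i, y i • bas i) with hN
  have hvb : v.valuation k b ≠ 0 := (Valuation.ne_zero_iff _).mpr hb
  have h2 : v.valuation k (N - b) < v.valuation k b := by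
    refine h1.trans_le ?_
    calc min γ 1 * v.valuation k b ≤ 1 * v.valuation k b := mul_le_mul' (min_le_right _ _) le_rfl
      _ = _ := one_mul _
  have h3 : v.valuation k N = v.valuation k b := by
    have e : N = (N - b) + b := by ring
    rw [e, Valuation.map_add_eq_of_lt_right _ h2]
  have hN0 : N ≠ 0 := by
    intro h0
    rw [h0, map_zero] at h3
    exact hvb h3.symm
  have h4 : b / N - 1 = -(N - b) / N := by
    field_simp
    ring
  rw [h4, map_div₀, Valuation.map_neg, h3, div_lt_iff₀ (zero_lt_iff.mpr hvb)]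
  exact h1.trans_le (mul_le_mul' (min_le_left _ _) le_rfl)

/-- Norms from the completed algebra are close to global norms, tensor form. -/
theorem loc_of_tensor (v : HeightOneSpectrum (𝓞 k)) {b : k} (hb : b ≠ 0)
    {y : v.adicCompletion k ⊗[k] E}
    (hy : Algebra.norm (v.adicCompletion k) y = algebraMap k (v.adicCompletion k) b)
    {γ : Z0} (hγ : γ ≠ 0) : ∃ e : E, v.valuation k (b / Algebra.norm k e - 1) < γ := by
  set bas := Module.finBasis k E
  set basT := Algebra.TensorProduct.basis (v.adicCompletion k) bas with hbT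
  apply loc_of_det bas v hb (x := fun i => basT.repr y i) _ hγ
  rw [← hy, Algebra.norm_eq_matrix_det basT]
  congr 1
  conv_rhs => rw [← basT.sum_repr y, map_sum]
  refine Finset.sum_congr rfl fun i _ => ?_
  rw [map_smul]
  congr 1
  ext a c
  rw [Matrix.map_apply, Algebra.leftMulMatrix_eq_repr_mul, Algebra.leftMulMatrix_eq_repr_mul]
  rw [hbT, Algebra.TensorProduct.basis_apply, Algebra.TensorProduct.basis_apply,
    Algebra.TensorProduct.tmul_mul_tmul, one_mul, Algebra.TensorProduct.basis_repr_tmul]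
  simp

end tens

section final

/-- **Hasse norm theorem for cubic extensions, with local criteria.** `f` is the minimal polynomial
of an integral generator of `E`. -/
theorem hasse_norm_cubic {k E : Type} [Field k] [NumberField k] [Field E] [NumberField E]
    [Algebra k E] (hE : finrank k E = 3) {f : (𝓞 k)[X]} (hf : f.Monic) (hdeg : f.natDegree = 3)
    {θ : E} (hθ : aeval θ (f.map (algebraMap (𝓞 k) k)) = 0) (hgen : ∀ c : k, algebraMap k E c ≠ θ)
    {b : k} (hb : b ≠ 0)
    (h : ∀ v : HeightOneSpectrum (𝓞 k), ApxRoot v f ∨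
      (v.valuation k (3 : k) = 1 ∧ (f.map (Ideal.Quotient.mk v.asIdeal)).Separable ∧
        ∃ c : k, v.valuation k (b / c ^ 3) = 1) ∨
      ∃ e : E, v.valuation k (b / Algebra.norm k e - 1) < v.valuation k (9 : k)) :
    ∃ e : E, Algebra.norm k e = b := by
  have h9 : ((3 : ℕ) : k) ^ 2 = 9 := by norm_num
  refine hasse_norm_prime (p := 3) Nat.prime_three (by norm_num) hE (Units.mk0 b hb) fun v => ?_
  rcases h v with h1 | ⟨h1, h2, c, h3⟩ | h1
  · refine loc_root Nat.prime_three hE v hf hdeg hθ hgen h1 hb ?_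
    rw [h9]
    exact (Valuation.ne_zero_iff _).mpr (by norm_num)
  · exact loc_unram Nat.prime_three hE v (by exact_mod_cast h1) hf hdeg hθ hgen h2 h3
  · rw [h9]
    exact h1

end final

end Vale.Agent.P011.H373
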