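import Vale.Agent.P011.ArP.Has4

/-!
The Hasse norm theorem for arbitrary extensions of odd prime degree of number fields, deduced from
the one for Kummer extensions.
-/

open NumberField IsDedekindDomain Polynomial Module
open scoped IntermediateField

namespace Vale.Agent.P011.H373

open Vale.Agent.P011.Arith (Z0 exists_below val_above val_lt_val_iff)
open Vale.Agent.P011.ArP

section kd

variable {p : ℕ} {F : Type} [Field F] [NumberField F] {E : Type} [Field E] [NumberField E]
  [Algebra F E] {M : Mu p F} {a : Fˣ} {θ : E} {σ : E ≃ₐ[F] E}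

theorem sig_aeval (Q : KD M a E θ σ) (h : F[X]) (i : ℕ) :
    (σ ^ i) (aeval θ h) = aeval θ (h.comp (C (M.ζ ^ i) * X)) := by
  rw [aeval_comp]
  simp only [map_mul, aeval_C, aeval_X]
  rw [← Q.sig_theta i]
  exact (Polynomial.aeval_algHom_apply (σ ^ i : E ≃ₐ[F] E).toAlgHom θ h).symm

theorem norm_aeval (Q : KD M a E θ σ) (h : F[X]) :
    Algebra.norm F (aeval θ h) = (M.nf h).eval (a : F) := by
  apply (algebraMap F E).injective
  rw [Q.norm_eq, Finset.prod_congr rfl fun i _ => sig_aeval Q h i]
  have h1 := congrArg (aeval θ) (M.expand_nf h)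
  rw [expand_aeval, Q.pow] at h1
  rw [Polynomial.aeval_algebraMap_apply_eq_algebraMap_eval] at h1
  rw [h1, Mu.cj, map_prod]

theorem mem_NF_of_norm (Q : KD M a E θ σ) {b : Fˣ} {e : E} (h : Algebra.norm F e = b)
    (hgen : ∃ q : F[X], e = aeval θ q) : b ∈ NF M a := by
  obtain ⟨q, rfl⟩ := hgen
  exact ⟨q, by rw [← norm_aeval Q, h]⟩

theorem norm_of_mem_NF (Q : KD M a E θ σ) {b : Fˣ} (h : b ∈ NF M a) :
    ∃ e : E, Algebra.norm F e = b := by
  obtain ⟨q, hq⟩ := h
  exact ⟨aeval θ q, by rw [norm_aeval Q, hq]⟩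

end kd

section gal

variable {k : Type} [Field k] [CharZero k]

omit [CharZero k] in
theorem card_gal_dvd (P : k[X]) {p : ℕ} (hP : P.natDegree = p) :
    Nat.card P.Gal ∣ p.factorial := by
  have : Fact ((P.map (algebraMap k P.SplittingField)).Splits) := ⟨SplittingField.splits P⟩
  have h1 := Subgroup.card_dvd_of_injective _ (Gal.galActionHom_injective P P.SplittingField)
  refine h1.trans ?_
  rw [Nat.card_perm, Nat.card_coe_set_eq]
  exact Nat.factorial_dvd_factorial ((ncard_rootSet_le P P.SplittingField).trans hP.le)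

theorem card_cyc_dvd {p : ℕ} (hp : p.Prime) :
    Nat.card (cyclotomic p k).Gal ∣ p - 1 := by
  have : NeZero p := ⟨hp.ne_zero⟩
  have : NeZero (p : k) := ⟨by exact_mod_cast hp.ne_zero⟩
  have h1 : Nat.card ((CyclotomicField p k) ≃ₐ[k] (CyclotomicField p k)) ∣ p - 1 := by
    have h2 := Subgroup.card_dvd_of_injective _
      ((IsCyclotomicExtension.zeta_spec p k (CyclotomicField p k)).autToPow_injective k)
    rwa [Nat.card_eq_fintype_card (α := (ZMod p)ˣ), ZMod.card_units_eq_totient,
      Nat.totient_prime hp] at h2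
  exact h1

theorem card_mul_not_dvd {p : ℕ} (hp : p.Prime) {P : k[X]} (hP : P.natDegree = p) :
    ¬ p ^ 2 ∣ Nat.card (P * cyclotomic p k).Gal := by
  intro h
  have h1 := Subgroup.card_dvd_of_injective _ (Gal.restrictProd_injective P (cyclotomic p k))
  rw [Nat.card_prod] at h1
  have h2 : p ^ 2 ∣ p.factorial * (p - 1) :=
    h.trans (h1.trans (mul_dvd_mul (card_gal_dvd P hP) (card_cyc_dvd hp)))
  obtain ⟨q, rfl⟩ : ∃ q, p = q + 1 := ⟨p - 1, (Nat.succ_pred_eq_of_pos hp.pos).symm⟩
  rw [Nat.factorial_succ, add_tsub_cancel_right, pow_two, mul_assoc] at h2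
  have h3 := Nat.dvd_of_mul_dvd_mul_left hp.pos h2
  have h4 : ∀ j, j ≤ q → ¬ (q + 1) ∣ j.factorial := fun j hj h => by
    have := (hp.dvd_factorial).mp h
    omega
  rcases (hp.dvd_mul).mp h3 with h5 | h5
  · exact h4 q le_rfl h5
  · have := Nat.le_of_dvd (by have := hp.one_lt; omega) h5
    omega

end gal

/-- A Galois extension containing `E` and the roots of unity, of order not divisible by `p ^ 2`. -/
theorem exists_big {p : ℕ} (hp : p.Prime) (k E : Type) [Field k] [NumberField k] [Field E]
    [NumberField E] [Algebra k E] (hE : finrank k E = p) :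
    ∃ (N : Type) (_ : Field N) (_ : NumberField N) (_ : Algebra k N) (_ : E →ₐ[k] N) (ζ : N),
      IsGalois k N ∧ IsPrimitiveRoot ζ p ∧ ¬ p ^ 2 ∣ finrank k N := by
  have hfd : FiniteDimensional k E := Module.finite_of_finrank_pos (by rw [hE]; exact hp.pos)
  have pb := Field.powerBasisOfFiniteOfSeparable k E
  set P := minpoly k pb.gen with hPdef
  have hPdeg : P.natDegree = p := by
    rw [hPdef, pb.natDegree_minpoly, ← pb.finrank, hE]
  have hP0 : P ≠ 0 := by
    intro h
    rw [h, natDegree_zero] at hPdeg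
    exact hp.ne_zero hPdeg.symm
  have hC0 : cyclotomic p k ≠ 0 := cyclotomic_ne_zero p k
  set Q := P * cyclotomic p k with hQdef
  have hQ0 : Q ≠ 0 := mul_ne_zero hP0 hC0
  have hch : CharZero Q.SplittingField :=
    charZero_of_injective_algebraMap (algebraMap k Q.SplittingField).injective
  have hfq : FiniteDimensional ℚ Q.SplittingField := Module.Finite.trans k _
  have hnf : NumberField Q.SplittingField := { to_charZero := hch, to_finiteDimensional := hfq }
  have hgal : IsGalois k Q.SplittingField := by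
    have : Normal k Q.SplittingField := Normal.of_isSplittingField Q
    exact ⟨⟩
  have hsp := SplittingField.splits Q
  obtain ⟨x, hx⟩ : ∃ x : Q.SplittingField, aeval x P = 0 := by
    have h1 : (P.map (algebraMap k Q.SplittingField)).Splits := by
      refine Splits.of_dvd hsp ((Polynomial.map_ne_zero_iff (algebraMap k _).injective).mpr hQ0)
        (Polynomial.map_dvd _ (dvd_mul_right _ _))
    obtain ⟨x, hx⟩ := h1.exists_eval_eq_zero (by
      rw [degree_map]
      intro h
      have := natDegree_eq_zero_iff_degree_le_zero.mpr h.le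
      rw [hPdeg] at this
      exact hp.ne_zero this)
    exact ⟨x, by rwa [eval_map_algebraMap] at hx⟩
  obtain ⟨ζ, hζ⟩ : ∃ ζ : Q.SplittingField, IsPrimitiveRoot ζ p := by
    have h1 : ((cyclotomic p k).map (algebraMap k Q.SplittingField)).Splits := by
      refine Splits.of_dvd hsp ((Polynomial.map_ne_zero_iff (algebraMap k _).injective).mpr hQ0)
        (Polynomial.map_dvd _ (dvd_mul_left _ _))
    obtain ⟨x, hx⟩ := h1.exists_eval_eq_zero (by
      rw [degree_map]
      exact (degree_cyclotomic_pos p k hp.pos).ne')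
    refine ⟨x, ?_⟩
    have : NeZero (p : Q.SplittingField) := ⟨by exact_mod_cast hp.ne_zero⟩
    rw [map_cyclotomic] at hx
    exact isRoot_cyclotomic_iff.mp hx
  refine ⟨Q.SplittingField, inferInstance, hnf, inferInstance, pb.lift x hx, ζ, hgal, hζ, ?_⟩
  rw [← IsGalois.card_aut_eq_finrank]
  exact card_mul_not_dvd hp hPdeg

theorem root_mem {p : ℕ} (hp : p.Prime) {A N : Type} [Field A] [Field N] [Algebra A N]
    [FiniteDimensional A N] (hN : finrank A N = p) {ζ : N} (hζ : IsPrimitiveRoot ζ p) :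
    ∃ z : A, algebraMap A N z = ζ := by
  have h1 : (minpoly A ζ).natDegree ∣ p := by
    rw [← hN, ← IntermediateField.adjoin.finrank (Algebra.IsIntegral.isIntegral ζ)]
    exact ⟨finrank A⟮ζ⟯ N, (finrank_mul_finrank A A⟮ζ⟯ N).symm⟩
  have h2 : (minpoly A ζ).natDegree ≤ p - 1 := by
    have h3 : minpoly A ζ ∣ cyclotomic p A := by
      apply minpoly.dvd
      rw [aeval_def, eval₂_eq_eval_map, map_cyclotomic]
      exact hζ.isRoot_cyclotomic hp.pos
    have := natDegree_le_of_dvd h3 (cyclotomic_ne_zero p A)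
    rwa [natDegree_cyclotomic, Nat.totient_prime hp] at this
  have h4 : (minpoly A ζ).natDegree = 1 := by
    rcases (Nat.dvd_prime hp).mp h1 with h | h
    · exact h
    · have := hp.pos
      omega
  have h5 := minpoly.natDegree_eq_one_iff.mp h4
  exact h5

theorem exists_kd {p : ℕ} (hp : p.Prime) (hp2 : p ≠ 2) {A N : Type} [Field A] [NumberField A]
    [Field N] [NumberField N] [Algebra A N] [IsGalois A N] (hN : finrank A N = p) {ζ : N}
    (hζ : IsPrimitiveRoot ζ p) :
    ∃ (M : Mu p A) (a : Aˣ) (θ : N) (σ : N ≃ₐ[A] N), KD M a N θ σ ∧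
      ∀ e : N, ∃ q : A[X], e = aeval θ q := by
  have hpf : Fact p.Prime := ⟨hp⟩
  have hfd : FiniteDimensional A N := Module.finite_of_finrank_pos (by rw [hN]; exact hp.pos)
  obtain ⟨z, hz⟩ := root_mem hp hN hζ
  have hzp : IsPrimitiveRoot z p := by
    rw [← hz] at hζ
    exact hζ.of_map_of_injective (algebraMap A N).injective
  have hcard : Nat.card (N ≃ₐ[A] N) = p := by rw [IsGalois.card_aut_eq_finrank, hN]
  have hcyc : IsCyclic (N ≃ₐ[A] N) := isCyclic_of_prime_card hcard
  have hne : (primitiveRoots (finrank A N) A).Nonempty :=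
    ⟨z, by rw [hN]; exact (mem_primitiveRoots hp.pos).mpr hzp⟩
  obtain ⟨θ, ⟨a, ha⟩, htop⟩ := exists_root_adjoin_eq_top_of_isCyclic A N hne
  rw [hN] at ha
  have hgen : ∀ e : N, ∃ q : A[X], e = aeval θ q := by
    intro e
    have h1 : Algebra.adjoin A {θ} = ⊤ :=
      (IntermediateField.adjoin_simple_eq_top_iff_of_isAlgebraic
        (Algebra.IsAlgebraic.isAlgebraic θ)).mp htop
    have h2 : e ∈ Algebra.adjoin A {θ} := h1 ▸ Algebra.mem_top
    rw [Algebra.adjoin_singleton_eq_range_aeval] at h2
    obtain ⟨q, hq⟩ := h2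
    exact ⟨q, hq.symm⟩
  have hθA : ∀ c : A, algebraMap A N c ≠ θ := by
    intro c hc
    have h1 : Function.Surjective (algebraMap A N) := by
      intro e
      obtain ⟨q, rfl⟩ := hgen e
      rw [← hc, aeval_algebraMap_apply_eq_algebraMap_eval]
      exact ⟨_, rfl⟩
    have h2 : finrank A N = 1 := by
      have h3 := (LinearEquiv.ofBijective (Algebra.linearMap A N)
        ⟨(algebraMap A N).injective, h1⟩).finrank_eq
      rw [← h3, finrank_self]
    rw [hN] at h2
    exact hp.one_lt.ne' h2
  have hθ0 : θ ≠ 0 := fun h => hθA 0 (by rw [map_zero, h])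
  have ha0 : a ≠ 0 := by
    rintro rfl
    rw [map_zero] at ha
    exact (pow_ne_zero p hθ0) ha.symm
  obtain ⟨σ, hσ⟩ : ∃ σ : N ≃ₐ[A] N, σ ≠ 1 := by
    have : Nontrivial (N ≃ₐ[A] N) := by
      rw [← Finite.one_lt_card_iff_nontrivial, hcard]
      exact hp.one_lt
    exact exists_ne 1
  have hσθ : σ θ ≠ θ := by
    intro h
    apply hσ
    ext e
    obtain ⟨q, rfl⟩ := hgen e
    have h1 := (Polynomial.aeval_algHom_apply (σ : N →ₐ[A] N) θ q).symm
    have h2 : (σ : N →ₐ[A] N) θ = θ := h
    rw [h2] at h1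
    exact h1
  have hroot : (σ θ / θ) ^ p = 1 := by
    rw [div_pow, ← map_pow, ← ha, AlgEquiv.commutes, ha, div_self (pow_ne_zero p hθ0)]
  have hroot1 : σ θ / θ ≠ 1 := by
    intro h
    exact hσθ ((div_eq_one_iff_eq hθ0).mp h)
  have hprim : IsPrimitiveRoot (σ θ / θ) p := by
    have := orderOf_eq_prime hroot hroot1
    rw [← this]
    exact IsPrimitiveRoot.orderOf _
  obtain ⟨z', hz'⟩ := root_mem hp hN hprim
  have hzp' : IsPrimitiveRoot z' p := by
    rw [← hz'] at hprim
    exact hprim.of_map_of_injective (algebraMap A N).injective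
  refine ⟨⟨z', hzp', hp, hp2⟩, Units.mk0 a ha0, θ, σ, ⟨hN, ha.symm, ?_, ?_⟩, hgen⟩
  · show σ θ = algebraMap A N z' * θ
    rw [hz', div_mul_cancel₀ _ hθ0]
  · rintro ⟨c, hc⟩
    have hc' : (c : A) ^ p = a := by
      have := congrArg Units.val hc
      simpa using this
    have h1 : (θ / algebraMap A N c) ^ p = 1 := by
      rw [div_pow, ← ha, ← map_pow, hc', div_self]
      exact (_root_.map_ne_zero _).mpr ha0
    obtain ⟨i, -, hi⟩ := hprim.eq_pow_of_pow_eq_one h1
    have hc0 : algebraMap A N (c : A) ≠ 0 := (_root_.map_ne_zero _).mpr c.ne_zero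
    apply hθA (z' ^ i * c)
    rw [map_mul, map_pow, hz', hi, div_mul_cancel₀ _ hc0]

theorem exists_tower {p : ℕ} (hp : p.Prime) (k E : Type) [Field k] [NumberField k] [Field E]
    [NumberField E] [Algebra k E] (hE : finrank k E = p) :
    ∃ (A N : Type) (_ : Field A) (_ : NumberField A) (_ : Field N) (_ : NumberField N)
      (_ : Algebra k A) (_ : Algebra A N) (_ : Algebra k N) (_ : IsScalarTower k A N)
      (φ : E →ₐ[k] N) (ζ : N),
      IsGalois A N ∧ IsPrimitiveRoot ζ p ∧ finrank A N = p ∧ (finrank k A).Coprime p ∧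
      ∀ e : E, Algebra.norm A (φ e) = algebraMap k A (Algebra.norm k e) := by
  have hpf : Fact p.Prime := ⟨hp⟩
  obtain ⟨N, _, _, _, φ, ζ, hgal, hζ, hn⟩ := exists_big hp k E hE
  have hpn : p ∣ finrank k N := by
    let _ := φ.toRingHom.toAlgebra
    have : IsScalarTower k E N := IsScalarTower.of_algebraMap_eq fun x => (φ.commutes x).symm
    rw [← finrank_mul_finrank k E N, hE]
    exact dvd_mul_right _ _
  have hcard : Nat.card (N ≃ₐ[k] N) = finrank k N := IsGalois.card_aut_eq_finrank k N
  obtain ⟨g, hg⟩ := exists_prime_orderOf_dvd_card' (G := N ≃ₐ[k] N) p (by rw [hcard]; exact hpn)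
  set S := Subgroup.zpowers g with hS
  set A := IntermediateField.fixedField S with hA
  have hAN : finrank A N = p := by
    rw [hA, IntermediateField.finrank_fixedField_eq_card, hS, Nat.card_zpowers, hg]
  have hmul : finrank k A * p = finrank k N := by
    rw [← hAN]; exact finrank_mul_finrank k A N
  have hcop : (finrank k A).Coprime p := by
    rw [Nat.coprime_comm]
    refine (Nat.Prime.coprime_iff_not_dvd hp).mpr fun h => hn ?_
    rw [← hmul, pow_two]
    exact mul_dvd_mul_right h p
  set B := φ.fieldRange with hB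
  have hBk : finrank k B = p := by
    rw [← hE]; exact φ.equivFieldRange.symm.toLinearEquiv.finrank_eq
  have hld : A.LinearDisjoint B := by
    apply IntermediateField.LinearDisjoint.of_finrank_coprime
    rw [hBk]; exact hcop
  have htop : A ⊔ B = ⊤ := by
    have h1 := hld.finrank_sup
    rw [hBk, hmul] at h1
    apply IntermediateField.eq_of_le_of_finrank_eq le_top
    rw [h1, IntermediateField.finrank_top']
  refine ⟨A, N, inferInstance, NumberField.of_module_finite k A, inferInstance, inferInstance,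
    inferInstance, inferInstance, inferInstance, inferInstance, φ, ζ, inferInstance, hζ, hAN, hcop,
    fun e => ?_⟩
  have h1 := hld.norm_algebraMap htop (φ.equivFieldRange e)
  rw [Algebra.norm_eq_of_algEquiv] at h1
  exact h1

theorem mem_of_pow_mem {G : Type} [CommGroup G] (H : Subgroup G) {m p : ℕ} (h : m.Coprime p)
    {b : G} (hm : b ^ m ∈ H) (hp : b ^ p ∈ H) : b ∈ H := by
  have h1 : b = (b ^ m) ^ (Nat.gcdA m p) * (b ^ p) ^ (Nat.gcdB m p) := by
    rw [← zpow_natCast, ← zpow_natCast, ← zpow_mul, ← zpow_mul, ← zpow_add,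
      ← Nat.gcd_eq_gcd_ab, h, Nat.cast_one, zpow_one]
  rw [h1]
  exact H.mul_mem (H.zpow_mem hm _) (H.zpow_mem hp _)

/-- The group of norms. -/
noncomputable def NG (k E : Type) [Field k] [Field E] [Algebra k E] : Subgroup kˣ :=
  (Units.map (Algebra.norm k : E →* k)).range

theorem mem_NG {k E : Type} [Field k] [Field E] [Algebra k E] {b : kˣ} [FiniteDimensional k E] :
    b ∈ NG k E ↔ ∃ e : E, Algebra.norm k e = b := by
  constructor
  · rintro ⟨e, rfl⟩
    exact ⟨e, rfl⟩
  · rintro ⟨e, he⟩
    have h0 : e ≠ 0 := by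
      rintro rfl
      rw [Algebra.norm_zero] at he
      exact b.ne_zero he.symm
    exact ⟨Units.mk0 e h0, Units.ext he⟩

/-- **The Hasse norm theorem for extensions of odd prime degree of number fields** (not
necessarily Galois, no roots of unity needed). -/
theorem hasse_norm_prime {p : ℕ} (hp : p.Prime) (hp2 : p ≠ 2) {k E : Type} [Field k]
    [NumberField k] [Field E] [NumberField E] [Algebra k E] (hE : finrank k E = p) (b : kˣ)
    (h : ∀ v : HeightOneSpectrum (𝓞 k), ∃ e : E,
      v.valuation k ((b : k) / Algebra.norm k e - 1) < v.valuation k ((p : k) ^ 2)) :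
    ∃ e : E, Algebra.norm k e = b := by
  have hfd : FiniteDimensional k E := Module.finite_of_finrank_pos (by rw [hE]; exact hp.pos)
  obtain ⟨A, N, _, _, _, _, _, _, _, _, φ, ζ, hgal, hζ, hN, hcop, hnorm⟩ := exists_tower hp k E hE
  obtain ⟨M, a, θ, σ, Q, hgen⟩ := exists_kd hp hp2 hN hζ
  set b' : Aˣ := Units.map (algebraMap k A) b with hb'
  have hloc : ∀ w : HeightOneSpectrum (𝓞 A), b' ∈ NF M a ⊔ LS M (w.valuation A) := by
    intro w
    obtain ⟨v, hv⟩ := exists_below (F := k) w
    obtain ⟨e, he⟩ := h v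
    have hp0 : v.valuation k ((p : k) ^ 2) ≤ 1 := by
      rw [map_pow]
      refine pow_le_one' ?_ 2
      have := v.valuation_le_one (K := k) (p : 𝓞 k)
      simpa using this
    have hn0 : Algebra.norm k e ≠ 0 := by
      intro h0
      rw [h0, div_zero, zero_sub, Valuation.map_neg, map_one] at he
      exact absurd he (not_lt.mpr hp0)
    set n : Aˣ := Units.mk0 (algebraMap k A (Algebra.norm k e))
      ((_root_.map_ne_zero _).mpr hn0) with hn
    have hnN : n ∈ NF M a := mem_NF_of_norm Q (e := φ e) (hnorm e) (hgen _)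
    have hls : b' * n⁻¹ ∈ LS M (w.valuation A) := by
      apply LS_of_close
      have h1 : ((b' * n⁻¹ : Aˣ) : A) - 1 = algebraMap k A ((b : k) / Algebra.norm k e - 1) := by
        rw [map_sub, map_div₀, map_one, Units.val_mul, Units.val_inv_eq_inv_val, ← div_eq_mul_inv]
        rfl
      have h2 := (val_lt_val_iff hv ((b : k) / Algebra.norm k e - 1) ((p : k) ^ 2)).mpr he
      rw [h1]
      refine h2.trans_le ?_
      rw [map_pow, map_natCast, map_pow, map_pow, M.val_p, ← pow_mul]
      exact pow_le_pow_right_of_le_one' (M.val_l_le _) (by have := hp.two_le; omega)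
    have h3 : b' = n * (b' * n⁻¹) := by rw [mul_comm, mul_assoc, inv_mul_cancel, mul_one]
    rw [h3]
    exact Subgroup.mul_mem_sup hnN hls
  obtain ⟨e', he'⟩ := norm_of_mem_NF Q (ArP.hasse_norm M a b' hloc)
  have hfkN : FiniteDimensional k N := by
    have h1 : FiniteDimensional A N := Module.finite_of_finrank_pos (by rw [hN]; exact hp.pos)
    have h2 : FiniteDimensional k A := inferInstance
    exact Module.Finite.trans A N
  have h1 : b ^ finrank k A ∈ NG k E := by
    rw [mem_NG]
    let _ := φ.toRingHom.toAlgebra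
    have : IsScalarTower k E N := IsScalarTower.of_algebraMap_eq fun x => (φ.commutes x).symm
    refine ⟨Algebra.norm E e', ?_⟩
    rw [Algebra.norm_norm, ← Algebra.norm_norm (R := k) (S := A), he', Units.val_pow_eq_pow_val]
    exact Algebra.norm_algebraMap (b : k)
  have h2 : b ^ p ∈ NG k E := by
    rw [mem_NG]
    refine ⟨algebraMap k E b, ?_⟩
    rw [Algebra.norm_algebraMap, hE, Units.val_pow_eq_pow_val]
  exact mem_NG.mp (mem_of_pow_mem _ hcop h1 h2)

end Vale.Agent.P011.H373
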