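import Vale.Agent.P011.H373.S1

/-!
The local criteria for elements of trace zero.
-/

open NumberField IsDedekindDomain Polynomial Module Matrix

namespace Vale.Agent.P011.H373

open H775 (Cub)
open H487 (LocD)

variable {K D : Type} [Field K] [NumberField K] [DivisionRing D] [Algebra K D] (C : Cub K D)

omit [NumberField K] in
theorem ne_smul_of_range {y : D} (hy : y ∉ Set.range (algebraMap K D)) (c : K) :
    y ≠ c • (1 : D) := by
  rintro rfl
  exact hy ⟨c, Algebra.algebraMap_eq_smul_one c⟩

/-- Criterion (a) for trace zero, norm a unit. -/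
theorem s1_t0 {h : D} {V : HeightOneSpectrum (𝓞 K)} {b : K} (hh : h ∉ Set.range (algebraMap K D))
    (hT : C.T h = 0) (h3 : V.valuation K 3 = 1) (hS : V.valuation K (C.S h) ≤ 1)
    (hN : V.valuation K (C.N h) = 1) (hb : V.valuation K b = 1) : LocD C h V b := by
  refine locD_notcube' C (ne_smul_of_range hh) V h3 ?_ hS hN.le ?_ hb
  · rw [hT, map_zero]
    exact zero_le_one
  · rintro ⟨c, -, h1, -, h4⟩
    rw [hT, zero_sub, Valuation.map_neg, map_mul, h3, one_mul] at h1
    have h5 : V.valuation K (c ^ 3) < 1 := by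
      rw [map_pow]
      exact pow_lt_one₀ zero_le h1 (by norm_num)
    have h6 : C.N h = (C.N h - c ^ 3) + c ^ 3 := by ring
    rw [h6] at hN
    exact absurd hN (ne_of_lt ((Valuation.map_add _ _ _).trans_lt (max_lt h4 h5)))

/-- Criterion (c). -/
theorem s1_c {h : D} {V : HeightOneSpectrum (𝓞 K)} {b : K} (hT : C.T h = 0)
    (hN : V.valuation K (C.N h) ^ 2 < V.valuation K (C.S h) ^ 3) (hb : b ≠ 0) : LocD C h V b := by
  refine locD_trace_zero C ?_ V hT hN hb
  rintro c rfl
  rw [C.N_smul, C.N_one, mul_one, C.S_smul, show C.S (1 : D) = 3 from by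
    rw [Cub.S, C.adj_one, C.T_one]] at hN
  rw [map_smul, C.T_one, smul_eq_mul] at hT
  have h3 : (3 : K) ≠ 0 := by norm_num
  have hc : c = 0 := by
    rcases mul_eq_zero.mp hT with h | h
    · exact h
    · exact absurd h h3
  rw [hc] at hN
  simp at hN

end Vale.Agent.P011.H373
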