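import Vale.Agent.P011.H373.S1

/-!
Unitary elements of `K[y]` with a given norm.
-/

open NumberField IsDedekindDomain Polynomial Module Matrix

namespace Vale.Agent.P011.H373

open H775 (Cub)
open H487 (LocD)

/-- **S2**: a norm one element of `K` which satisfies the local conditions is the norm of a unitary
element commuting with `y`. -/
theorem exists_unitary {K D : Type} [Field K] [NumberField K] [StarRing K] [DivisionRing D]
    [StarRing D] [Algebra K D] [FiniteDimensional K D] [Algebra.IsCentral K D]
    (hD : finrank K D = 3 ^ 2)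
    (hss : ∀ c : K, star (algebraMap K D c) = algebraMap K D (star c)) (C : Cub K D) {y : D}
    (hy : ∀ c : K, y ≠ c • (1 : D)) (hyc : Commute (star y) y) {b : K} (hb : b * star b = 1)
    (h : ∀ V : HeightOneSpectrum (𝓞 K), LocD C y V b) :
    ∃ e : D, e * star e = 1 ∧ Commute e y ∧ C.N e = b := by
  have hb0 : b ≠ 0 := left_ne_zero_of_mul_eq_one hb
  obtain ⟨c, hc⟩ := exists_N C hy hb0 h
  set Y : D := c 0 • (1 : D) + c 1 • y + c 2 • (y * y) with hY
  have hY0 : Y ≠ 0 := by
    intro h0
    rw [h0, C.N_zero] at hc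
    exact hb0 hc.symm
  have hsY0 : star Y ≠ 0 := by
    intro h0
    apply hY0
    rw [← star_star Y, h0, star_zero]
  have hYy : Commute Y y := by
    have h1 : Commute (1 : D) y := Commute.one_left y
    have h2 : Commute (y * y) y := (Commute.refl y).mul_left (Commute.refl y)
    exact ((h1.smul_left _).add_left ((Commute.refl y).smul_left _)).add_left (h2.smul_left _)
  have hYs : Commute Y (star y) := by
    have h1 : Commute (1 : D) (star y) := Commute.one_left _
    have h2 : Commute (y * y) (star y) := hyc.symm.mul_left hyc.symm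
    exact ((h1.smul_left _).add_left (hyc.symm.smul_left _)).add_left (h2.smul_left _)
  have hYs' : Commute (star Y) y := by
    have h1 := hYs.star_star
    rwa [star_star] at h1
  have hYY : Commute (star Y) Y := by
    have h1 : Commute (star Y) (1 : D) := Commute.one_right _
    have h2 : Commute (star Y) (y * y) := hYs'.mul_right hYs'
    exact ((h1.smul_right _).add_right (hYs'.smul_right _)).add_right (h2.smul_right _)
  have hNs : C.N (star Y) = star b := by
    rw [(C.star_coeff hD hss Y).2.2, hc]
  have hsb : star b = b⁻¹ := eq_inv_of_mul_eq_one_right hb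
  refine ⟨algebraMap K D b * (star Y * Y⁻¹), ?_, ?_, ?_⟩
  · have e1 : star (algebraMap K D b * (star Y * Y⁻¹)) =
        algebraMap K D b⁻¹ * ((star Y)⁻¹ * Y) := by
      rw [star_mul, star_mul, star_star, hss, hsb, star_inv₀, ← Algebra.commutes]
    rw [e1]
    have e2 : algebraMap K D b * (star Y * Y⁻¹) * (algebraMap K D b⁻¹ * ((star Y)⁻¹ * Y)) =
        (algebraMap K D b * algebraMap K D b⁻¹) * (star Y * Y⁻¹ * ((star Y)⁻¹ * Y)) :=
      (Algebra.commute_algebraMap_right b⁻¹ (star Y * Y⁻¹)).mul_mul_mul_comm _ _
    rw [e2, ← map_mul, mul_inv_cancel₀ hb0, map_one, one_mul]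
    have e3 : star Y * Y⁻¹ = Y⁻¹ * star Y := (hYY.inv_right₀).eq
    rw [e3, mul_assoc, ← mul_assoc (star Y), mul_inv_cancel₀ hsY0, one_mul, inv_mul_cancel₀ hY0]
  · exact (Algebra.commute_algebraMap_left b y).mul_left (hYs'.mul_left hYy.inv_left₀)
  · rw [Algebra.algebraMap_eq_smul_one, smul_mul_assoc, one_mul, C.N_smul, C.N_mul, C.N_inv, hNs,
      hc, hsb]
    field_simp

end Vale.Agent.P011.H373
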